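import Vale.Agent.P042.H564.OoSub
import Vale.Agent.P042.H284.Oo

/-!
# P042, F.INF3: assembly of block [C] with one extra coordinate
-/

set_option autoImplicit false
set_option linter.unusedSectionVars false

namespace Vale.Agent.P042.H564.Oo

open Finset Vale.Agent.P042.H232 Vale.Agent.P042.H461 Vale.Agent.P042.H742 Vale.Agent.P042.H365
  Vale.Agent.P042.H416
open Vale.Agent.P042.H779 (m1)
open Vale.Agent.P042.H284 (BV Lt pr pr_nil pr_cons pr_nonneg pr_perm BdT sum_Lt_nil sum_Lt_cons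
  sum_Lt_perm VJ BT BO eo eo_none eo_some rs star_in zF FK tyi co)

universe u v u1 u2

theorem el_eq_eo {J : Type v} (ell : J → ℝ) : el ell = eo ell := by
  funext l
  cases l <;> rfl

section mono

variable {ι : Type*} [Fintype ι] [DecidableEq ι] {V : ι → Type*} [∀ i, Fintype (V i)]
  [∀ i, DecidableEq (V i)] {lam : ∀ i, V i → ℝ} {mu : (∀ i, V i) → ℝ} {R E R' E' : ι → ℝ}

/-- The bounds are monotone in the weights of the letters. -/
theorem bdt_mono (h0 : ∀ i a, 0 ≤ lam i a) (hR' : ∀ i, 0 ≤ R' i) (hE' : ∀ i, 0 ≤ E' i)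
    {Λ : Type*} {X : Λ → Finset (Σ i, Option (V i))}
    (hR : ∀ l, ∀ ω ∈ X l, R' ω.1 ≤ R ω.1) (hE : ∀ l, ∀ ω ∈ X l, E' ω.1 ≤ E ω.1) {b : ℕ}
    {y κ : Λ → ℝ} {N : Λ → Λ → ℝ} (hy : ∀ l, 0 ≤ y l) (hκ : ∀ l, 0 ≤ κ l)
    (h : BdT X b y κ N (Tn lam mu R E)) : BdT X b y κ N (Tn lam mu R' E') := by
  set χ : (Σ i, Option (V i)) → ℝ := fun ω => √(wo lam R' E' ω) / √(wo lam R E ω) with hχ
  have hwle : ∀ l, ∀ ω ∈ X l, wo lam R' E' ω ≤ wo lam R E ω := by
    rintro l ⟨i, a⟩ hω
    cases a with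
    | none => exact hE l _ hω
    | some a => exact mul_le_mul_of_nonneg_left (hR l _ hω) (h0 i a)
  have hw0 : ∀ ω, 0 ≤ wo lam R' E' ω := wo_nonneg h0 hR' hE'
  have hsq : ∀ l, ∀ ω ∈ X l, √(wo lam R' E' ω) = χ ω * √(wo lam R E ω) := by
    intro l ω hω
    have h1 := Real.sqrt_le_sqrt (hwle l ω hω)
    have h2 := Real.sqrt_nonneg (wo lam R' E' ω)
    by_cases hz : √(wo lam R E ω) = 0
    · rw [hz] at h1 ⊢
      rw [mul_zero]
      linarith
    · rw [hχ]
      beta_reduce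
      rw [div_mul_cancel₀ _ hz]
  have hχ1 : ∀ l, ∀ ω ∈ X l, χ ω ^ 2 ≤ 1 := by
    intro l ω hω
    have h1 := Real.sqrt_le_sqrt (hwle l ω hω)
    have h2 := Real.sqrt_nonneg (wo lam R' E' ω)
    have h3 : 0 ≤ χ ω := div_nonneg h2 (Real.sqrt_nonneg _)
    have h4 : χ ω ≤ 1 := div_le_one_of_le₀ h1 (Real.sqrt_nonneg _)
    exact pow_le_one₀ h3 h4
  have key : ∀ (τ : List Λ) (G : Multiset (Σ i, Option (V i)) → ℝ),
      ∑ ω ∈ Lt X τ, (G (ω : Multiset _) * (ω.map fun a => √(wo lam R' E' a)).prod) ^ 2 ≤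
      ∑ ω ∈ Lt X τ, (G (ω : Multiset _) * (ω.map fun a => √(wo lam R E a)).prod) ^ 2 := by
    intro τ
    induction τ with
    | nil =>
      intro G
      rw [sum_Lt_nil, sum_Lt_nil]
      simp
    | cons l τ ih =>
      intro G
      rw [sum_Lt_cons, sum_Lt_cons]
      refine Finset.sum_le_sum fun a ha => ?_
      have h1 := ih fun S => G (a ::ₘ S) * √(wo lam R E a)
      have h2 : ∀ ω : List (Σ i, Option (V i)),
          (G ((a :: ω : List _) : Multiset _) * ((a :: ω).map fun a => √(wo lam R' E' a)).prod) ^ 2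
          = χ a ^ 2 * ((G (a ::ₘ (ω : Multiset _)) * √(wo lam R E a)) *
            (ω.map fun a => √(wo lam R' E' a)).prod) ^ 2 := by
        intro ω
        rw [List.map_cons, List.prod_cons, hsq l a ha, ← Multiset.cons_coe]
        ring
      have h3 : ∀ ω : List (Σ i, Option (V i)),
          (G ((a :: ω : List _) : Multiset _) * ((a :: ω).map fun a => √(wo lam R E a)).prod) ^ 2
          = ((G (a ::ₘ (ω : Multiset _)) * √(wo lam R E a)) *
            (ω.map fun a => √(wo lam R E a)).prod) ^ 2 := by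
        intro ω
        rw [List.map_cons, List.prod_cons, ← Multiset.cons_coe]
        ring
      rw [Finset.sum_congr rfl fun ω _ => h2 ω, Finset.sum_congr rfl fun ω _ => h3 ω,
        ← Finset.mul_sum]
      refine le_trans ?_ h1
      refine mul_le_of_le_one_left (Finset.sum_nonneg fun _ _ => sq_nonneg _) (hχ1 l a ha)
  have hmap : ∀ (R E : ι → ℝ) (ω : List (Σ i, Option (V i))), Tn lam mu R E (ω : Multiset _) =
      cumT (Mo lam mu) (ω : Multiset _) * (ω.map fun a => √(wo lam R E a)).prod := by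
    intro R E ω
    unfold Tn
    rw [Multiset.map_coe, Multiset.prod_coe]
  have key' : ∀ τ : List Λ, ∑ ω ∈ Lt X τ, Tn lam mu R' E' (ω : Multiset _) ^ 2 ≤
      ∑ ω ∈ Lt X τ, Tn lam mu R E (ω : Multiset _) ^ 2 := by
    intro τ
    simp only [hmap]
    exact key τ (cumT (Mo lam mu))
  refine ⟨fun l => (key' _).trans (h.one l), fun l m => (key' _).trans (h.two l m), ?_,
    fun τ h3 hb => (key' _).trans (h.hs τ h3 hb)⟩
  intro l m u v
  have h1 := h.op l m (fun p => χ p * u p) (fun q => χ q * v q)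
  have h2 : ∑ p ∈ X l, ∑ q ∈ X m, χ p * u p * Tn lam mu R E (p ::ₘ q ::ₘ 0) * (χ q * v q) =
      ∑ p ∈ X l, ∑ q ∈ X m, u p * Tn lam mu R' E' (p ::ₘ q ::ₘ 0) * v q := by
    refine Finset.sum_congr rfl fun p hp => Finset.sum_congr rfl fun q hq => ?_
    have h3 := hmap R E [p, q]
    have h4 := hmap R' E' [p, q]
    have e1 : (([p, q] : List (Σ i, Option (V i))) : Multiset _) = p ::ₘ q ::ₘ 0 := rfl
    rw [e1] at h3 h4
    simp only [List.map_cons, List.map_nil, List.prod_cons, List.prod_nil, mul_one] at h3 h4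
    rw [h3, h4, hsq l p hp, hsq m q hq]
    ring
  rw [h2] at h1
  refine h1.trans ?_
  have hw : 0 ≤ y l * κ m / y m := div_nonneg (mul_nonneg (hy l) (hκ m)) (hy m)
  have h5 : ∀ (k : Λ) (u : (Σ i, Option (V i)) → ℝ),
      √(∑ p ∈ X k, (χ p * u p) ^ 2) ≤ √(∑ p ∈ X k, u p ^ 2) := by
    intro k u
    refine Real.sqrt_le_sqrt (Finset.sum_le_sum fun p hp => ?_)
    rw [mul_pow]
    exact mul_le_of_le_one_left (sq_nonneg _) (hχ1 k p hp)
  have h6 := h5 l u
  have h7 := h5 m v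
  gcongr

end mono

section asm

variable {ι0 : Type u1} [Fintype ι0] [DecidableEq ι0] {V : Option ι0 → Type u2}
  [∀ i, Fintype (V i)] [∀ i, DecidableEq (V i)] {J : Type v} [Fintype J] [DecidableEq J]
  {lam : ∀ i, V i → ℝ} {rho e : Option ι0 → ℝ} {mu mu' : (∀ i, V i) → ℝ}

/-- The coordinates of the marginal law: scales up to `ell j`, and `o`. -/
def po (sc : ι0 → J) (ell : J → ℝ) (j : J) (i : Option ι0) : Prop :=
  eo ell (Option.map sc i) ≤ ell j

/-- The letters of the marginal law. -/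
noncomputable def Vo (V : Option ι0 → Type u2) [∀ i, Fintype (V i)] (sc : ι0 → J) (ell : J → ℝ)
    (j : J) [DecidablePred (po sc ell j)] (l : Option J) :
    Finset (Σ i : {i // po sc ell j i}, Option (V i)) :=
  univ.filter fun ω => Option.map sc ω.1.1 = l

/-- **Rows at rates `r` for the two marginal laws, at one order and one top scale.** -/
def RwOK (lam : ∀ i, V i → ℝ) (rho e : Option ι0 → ℝ) (mu : (∀ i, V i) → ℝ) (sc : ι0 → J)
    (ell : J → ℝ) (g c1 : ℝ) (b : ℕ) (j : J) [DecidablePred (po sc ell j)] (σ : ℝ) : Prop :=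
  ∃ (r K : {i // po sc ell j i} → ℝ) (θ L : ℝ),
    RwO (lsub (po sc ell j) lam) (msub (po sc ell j) mu)
      (fun i : {i // po sc ell j i} => Option.map sc i.1) ell g c1 b
      (fun i => 2 * (σ * rho i)) (fun i => 2 * (σ * e i)) r K θ L

/-- One law. -/
theorem bd_of (h0 : ∀ i a, 0 ≤ lam i a) (hmu : ∑ x, mu x = 1) {sc : ι0 → J} {ell : J → ℝ}
    (hell : ∀ j, 0 ≤ ell j) {g c1 : ℝ} (hg : 0 ≤ g) (hc1 : 0 ≤ c1) {b : ℕ} (hb : 2 ≤ b) {j : J}
    [DecidablePred (po sc ell j)] {σ σ0 : ℝ} (hσ : 0 ≤ σ) (hσ0 : σ ≤ σ0)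
    (hrho : ∀ i, 0 ≤ rho i) (he : ∀ i, 0 ≤ e i) {R0 E0 : ι0 → ℝ}
    (hR0 : ∀ i, ell (sc i) ≤ ell j → 2 * (σ0 * rho (some i)) ≤ R0 i)
    (hE0 : ∀ i, ell (sc i) ≤ ell j → 2 * (σ0 * e (some i)) ≤ E0 i) {N : J → J → ℝ}
    (hT : BdT (VJ (fun i => V (some i)) sc ell j) b (fun l => Real.exp (g * ell l))
      (fun l => Real.exp (-(c1 * ell l))) N (Tn (fun i => lam (some i)) (push rs mu) R0 E0))
    (hRw : RwOK lam rho e mu sc ell g c1 b j σ) :
    BdT (Vo V sc ell j) b (fun l => Real.exp (g * eo ell l)) (fun l => Real.exp (-(c1 * eo ell l)))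
      (No N ell g c1) (Tn (lsub (po sc ell j) lam) (msub (po sc ell j) mu)
        (fun i => 2 * (σ * rho i)) (fun i => 2 * (σ * e i))) := by
  obtain ⟨r, K, θ, L, hRw⟩ := hRw
  -- the weights on the ordinary coordinates
  have h1 : BdT (VJ (fun i => V (some i)) sc ell j) b (fun l => Real.exp (g * ell l))
      (fun l => Real.exp (-(c1 * ell l))) N (Tn (fun i => lam (some i)) (push rs mu)
        (fun i => 2 * (σ * rho (some i))) (fun i => 2 * (σ * e (some i)))) := by
    have hmem : ∀ l, ∀ ω ∈ VJ (fun i => V (some i)) sc ell j l, ell (sc ω.1) ≤ ell j := by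
      intro l ω hω
      unfold VJ at hω
      split_ifs at hω with hl
      · rw [(Finset.mem_filter.1 hω).2]; exact hl
      · simp at hω
    refine bdt_mono (fun i a => h0 _ a) (fun i => ?_) (fun i => ?_) (fun l ω hω => ?_)
      (fun l ω hω => ?_) (fun l => (Real.exp_pos _).le) (fun l => (Real.exp_pos _).le) hT
    · have := hrho (some i); positivity
    · have := he (some i); positivity
    · refine le_trans ?_ (hR0 ω.1 (hmem l ω hω))
      have := mul_le_mul_of_nonneg_right hσ0 (hrho (some ω.1))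
      linarith
    · refine le_trans ?_ (hE0 ω.1 (hmem l ω hω))
      have := mul_le_mul_of_nonneg_right hσ0 (he (some ω.1))
      linarith
  have hV : ∀ l ω, ω ∈ Vo V sc ell j l ↔ (fun i : {i // po sc ell j i} => Option.map sc i.1) ω.1
      = l := fun l ω => by simp [Vo]
  have h2 := bdt_ord (ι := Option ι0) (V := V) (f := some) (lam := lam) (mu := mu)
    (p := po sc ell j)
    (Option.some_injective ι0) hmu (sc := Option.map sc) (sc0 := sc) (fun i => rfl)
    (fun i hi => by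
      cases i with
      | none => exact absurd rfl hi
      | some i => exact ⟨i, rfl⟩) (ell := ell) (j := j) (fun i => Iff.rfl)
    (VV := Vo V sc ell j) hV
    (R := fun i => 2 * (σ * rho i)) (E := fun i => 2 * (σ * e i))
    (R0 := fun i => 2 * (σ * rho (some i))) (E0 := fun i => 2 * (σ * e (some i)))
    (fun i hi => rfl) (fun i hi => rfl) h1
  have h3 := bdt_o hRw hb hg hc1 hell hV h2
  rw [el_eq_eo] at h3
  exact h3

/-- **Assembly of `BO`.** -/
theorem bo_of (h0 : ∀ i a, 0 ≤ lam i a) (hmu : ∑ x, mu x = 1) (hmu' : ∑ x, mu' x = 1)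
    {sc : ι0 → J} {ell : J → ℝ} (hell : ∀ j, 0 < ell j) {g c1 c2 : ℝ} (hg : 0 ≤ g)
    (hc1 : 0 ≤ c1) (hc : c1 + g ≤ c2) {b A : ℕ} (hb : 2 ≤ b) {j : J}
    [DecidablePred (po sc ell j)] {σ σ0 S : ℝ} (hσ : 0 < σ) (hσ0 : σ ≤ σ0) (hS : σ⁻¹ ≤ S)
    (hrho : ∀ i, 0 < rho i) (he : ∀ i, 0 < e i) {R0 E0 : ι0 → ℝ} {N : J → J → ℝ}
    (hB : BT (fun i => lam (some i)) (fun i => rho (some i)) (fun i => e (some i)) (push rs mu)
      (push rs mu') sc ell g c1 c2 A b j σ0 R0 E0 N)
    (hRw : RwOK lam rho e mu sc ell g c1 b j σ) (hRw' : RwOK lam rho e mu' sc ell g c1 b j σ) :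
    BO (po sc ell j) lam rho e mu mu' (Option.map sc) ell g c1 (g + c1) b j S σ
      (Vo V sc ell j) (fun i => 2 * (σ * rho i)) (fun i => 2 * (σ * e i)) (No N ell g c1) := by
  have hell0 : ∀ j, 0 ≤ ell j := fun j => (hell j).le
  have hbd := bd_of h0 hmu hell0 hg hc1 hb hσ.le hσ0 (fun i => (hrho i).le) (fun i => (he i).le)
    hB.R1 hB.E1 hB.bd hRw
  have hbd' := bd_of h0 hmu' hell0 hg hc1 hb hσ.le hσ0 (fun i => (hrho i).le)
    (fun i => (he i).le) hB.R1 hB.E1 hB.bd' hRw'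
  refine ⟨fun i hi => hi, fun l ω => by simp [Vo], hσ, hS,
    fun i => by have := hrho i.1; positivity, fun i => by have := he i.1; positivity,
    fun i => le_rfl, fun i => le_rfl, hbd, hbd', ?_, ?_, ?_⟩
  · intro l m
    cases l with
    | none => rw [No_none_left]; positivity
    | some l =>
      cases m with
      | none => rw [No_none_right]; positivity
      | some m => exact hB.N0 l m
  · intro l m
    have hq : ∀ l : Option J, Real.exp (-(c1 * el ell l)) / Real.exp (g * el ell l) ≤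
        Real.exp (g * eo ell l) := by
      intro l
      rw [← el_eq_eo, ← Real.exp_sub]
      apply Real.exp_le_exp.2
      have h1 := el_nonneg hell0 l
      have h2 := mul_nonneg hg h1
      have h3 := mul_nonneg hc1 h1
      linarith
    cases l with
    | none =>
      rw [No_none_left]
      exact mul_le_mul (hq none) (hq m) (by positivity) (by positivity)
    | some l =>
      cases m with
      | none =>
        rw [No_none_right]
        exact mul_le_mul (hq (some l)) (hq none) (by positivity) (by positivity)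
      | some m => exact hB.N1 l m
  · intro l m hlm
    cases l with
    | none =>
      rw [No_none_left, ← el_eq_eo]
      simp only [el_none, mul_zero, neg_zero, Real.exp_zero, div_one, one_mul, zero_sub, sub_zero]
      rw [← Real.exp_sub]
      apply Real.exp_le_exp.2
      linarith
    | some l =>
      cases m with
      | none =>
        rw [eo_none, eo_some] at hlm
        exact absurd (hell l) (not_lt.2 hlm)
      | some m =>
        rw [eo_some, eo_some] at hlm ⊢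
        refine (hB.N2 l m hlm).trans (Real.exp_le_exp.2 ?_)
        have := mul_le_mul_of_nonneg_right hc (sub_nonneg.2 hlm)
        linarith

variable {K : ∀ i, V i → V i → ℝ} {c : Option ι0 → ℝ} {u u' : ∀ i, V i → ℝ}
  {s : ∀ i, V i → V i → ℝ}

open Classical in
/-- **(E*) and (D*) for one modulus `m`**: from the bounds of block [C] on the ordinary coordinates
(`BT`) and the rows at root `o`. -/
theorem star_of (h0 : ∀ i a, 0 ≤ lam i a) (H : H365.OB lam K c u u' s rho e)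
    (hrho : ∀ i, 0 < rho i) (he : ∀ i, 0 < e i) (hmu : ∑ x, mu x = 1) (hmu' : ∑ x, mu' x = 1)
    (hac : ∀ x, mu x ≠ 0 → ∀ i, lam i (x i) ≠ 0) (hac' : ∀ x, mu' x ≠ 0 → ∀ i, lam i (x i) ≠ 0)
    {sc : ι0 → J} {ell : J → ℝ} {A A' : ℕ} (hell : ∀ j, 2 ≤ ell j)
    (hellA : ∀ j, 2 * ((max A A' : ℕ) : ℝ) ≤ ell j) {g c1 c2 : ℝ} (hg : 0 ≤ g) (hc1 : 0 ≤ c1)
    (hc : c1 + g ≤ c2) {b0 m : ℕ}
    (HB : ∀ b, 1 ≤ b → b ≤ b0 + 1 → ∀ j : J, ∃ (σ : ℝ) (R E : ι0 → ℝ) (N : J → J → ℝ),
      BT (fun i => lam (some i)) (fun i => rho (some i)) (fun i => e (some i)) (push rs mu)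
        (push rs mu') sc ell g c1 c2 A b j σ R E N)
    (HR : ∀ b, 2 ≤ b → b ≤ b0 + 1 → ∀ (j : J) (σ : ℝ), 0 < σ →
      σ ≤ (((1 + Real.log m) * (b * ell j)) ^ A')⁻¹ →
      RwOK lam rho e mu sc ell g c1 b j σ ∧ RwOK lam rho e mu' sc ell g c1 b j σ)
    {M0 k : ℝ} (hM0 : |M0| ≤ Real.exp (k * Real.log m))
    (h00 : |M0 * FK K mu mu' (Finset.insertNone ∅)| ≤ Real.exp ((k + 1) * Real.log m)) :
    ∃ wm : (J →₀ ℕ) → ℝ,
      (∀ a, ∑ B ∈ (univ : Finset ι0).powerset.filter (fun B => tyi sc B = a),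
          M0 * FK K mu mu' (Finset.insertNone B) =
        ∑ x ∈ antidiagonal a, wm x.1 *
          co (zF sc (FK (fun i => K (some i)) (push rs mu) (push rs mu'))) x.2) ∧
      |wm 0| ≤ Real.exp ((k + 1) * Real.log m) ∧
      ∀ a, a ≠ 0 → a.degree ≤ b0 → |wm a| ≤
        Real.exp ((k + 1) * Real.log m +
          (10 * (max A A') + 12 : ℕ) * a.degree * Real.log (∑ j, (a j : ℝ) * ell j)
          - c1 * ∑ j, (a j : ℝ) * ell j) := by
  have hy : 0 ≤ Real.log m := Real.log_natCast_nonneg m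
  refine star_in h0 H hmu hmu' hac hac' hell hellA hg hc1 le_rfl ?_ hM0 h00
  intro b hb2 hb j
  obtain ⟨σ0, R0, E0, N, hB⟩ := HB b (by omega) hb j
  have hb' : (2 : ℝ) ≤ b := by exact_mod_cast hb2
  have hej := hell j
  have hx1 : 1 ≤ (b : ℝ) * ell j := by nlinarith
  have hz1 : 1 ≤ (1 + Real.log m) * (b * ell j) := by nlinarith
  set z : ℝ := (1 + Real.log m) * (b * ell j) with hz
  have hzA' : 0 < z ^ A' := by positivity
  set σ := min σ0 (z ^ A')⁻¹ with hσdef
  have hσ : 0 < σ := lt_min hB.s0 (inv_pos.2 hzA')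
  have hS : σ⁻¹ ≤ z ^ (max A A') := by
    have h1 : σ0⁻¹ ≤ z ^ (max A A') := by
      refine hB.s1.trans ?_
      calc ((b : ℝ) * ell j) ^ A ≤ z ^ A := by
            refine pow_le_pow_left₀ (by positivity) ?_ A
            rw [hz]
            nlinarith
        _ ≤ _ := pow_le_pow_right₀ hz1 (le_max_left _ _)
    have h2 : z ^ A' ≤ z ^ (max A A') := pow_le_pow_right₀ hz1 (le_max_right _ _)
    rcases min_cases σ0 (z ^ A')⁻¹ with h | h
    · rw [hσdef, h.1]; exact h1
    · rw [hσdef, h.1, inv_inv]; exact h2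
  obtain ⟨hR1, hR2⟩ := HR b hb2 hb j σ hσ (min_le_right _ _)
  exact ⟨po sc ell j, inferInstance, σ, Vo V sc ell j, _, _, _,
    bo_of h0 hmu hmu' (fun j => by linarith [hell j]) hg hc1 hc hb2 hσ (min_le_left _ _) hS
      hrho he hB hR1 hR2⟩

end asm

end Vale.Agent.P042.H564.Oo
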