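import Vale.Agent.P042.H161.Mix
import Vale.Agent.P042.H232.SysE

/-!
# P042, F.INF3: one extra coordinate `o` (a large modulus), typed norms with root `o`

Types are `Option J`, the type `none` is the type of the coordinate `o`; its weights are `1`.
`typ_o`: every typed norm with a leg `o`, from the rows at rates `r` (helper161's `Rws`).
`bdt_o`: helper284's `BdT` for all types from `BdT` for the types without `o`.
-/

set_option autoImplicit false
set_option linter.unusedSectionVars false

namespace Vale.Agent.P042.H564.Oo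

open Finset Vale.Agent.P042.H232 Vale.Agent.P042.H461 Vale.Agent.P042.H742 Vale.Agent.P042.H365
  Vale.Agent.P042.H416
open Vale.Agent.P042.H779 (m1)
open Vale.Agent.P042.H284 (BV Lt pr pr_nil pr_cons pr_nonneg pr_perm BdT sum_Lt_nil sum_Lt_cons
  sum_Lt_perm)
open Vale.Agent.P042.H161 (Rws)

universe v

/-- the sizes of the types: `o` has size `0` -/
def el {J : Type v} (ell : J → ℝ) : Option J → ℝ
  | none => 0
  | some j => ell j

@[simp] theorem el_none {J : Type v} (ell : J → ℝ) : el ell none = 0 := rfl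

@[simp] theorem el_some {J : Type v} (ell : J → ℝ) (j : J) : el ell (some j) = ell j := rfl

theorem el_nonneg {J : Type v} {ell : J → ℝ} (h : ∀ j, 0 ≤ ell j) : ∀ l, 0 ≤ el ell l
  | none => le_rfl
  | some j => h j

variable {J : Type v} {ι : Type*} [Fintype ι] [DecidableEq ι] {V : ι → Type*}
  [∀ i, Fintype (V i)] [∀ i, DecidableEq (V i)]

/-- **Rows at rates `r` at one law, with an extra coordinate.** -/
structure RwO (lam : ∀ i, V i → ℝ) (mu : (∀ i, V i) → ℝ) (sc : ι → Option J) (ell : J → ℝ)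
    (g c1 : ℝ) (b : ℕ) (R E r K : ι → ℝ) (θ L : ℝ) : Prop where
  rws : Rws lam mu r K θ (b + 1)
  ref : Ref lam L
  sum : ∑ x, mu x = 1
  K1 : ∀ i, 1 ≤ K i
  g1 : ∀ i a, lam i a ≠ 0 → |g1 lam mu i a| ≤ K i
  th : 1 ≤ θ
  b1 : 1 ≤ b
  R0 : ∀ i, 0 ≤ R i
  E0 : ∀ i, 0 ≤ E i
  coord : ∀ i, 128 * b ^ 2 * (K i ^ 2 * r i) ≤ θ ^ 2
  leg : ∀ i, R i * (b * θ) ^ 2 ≤ Real.exp (-(2 * (c1 + g) * el ell (sc i))) * r i
  legE : ∀ i, 128 * b ^ 4 * K i ^ 2 * E i ≤ Real.exp (-(2 * (c1 + g) * el ell (sc i)))
  root : ∀ i, sc i = none → 4 * K i ^ 2 * (R i + E i) ≤ 1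
  uniq : ∀ i j, sc i = none → sc j = none → i = j

variable {lam : ∀ i, V i → ℝ} {mu : (∀ i, V i) → ℝ} {sc : ι → Option J} {ell : J → ℝ}
  {g c1 : ℝ} {b : ℕ} {R E r K : ι → ℝ} {θ L : ℝ}

/-- the constant letters' weights -/
noncomputable def Er (K : ι → ℝ) (θ : ℝ) (b : ℕ) (i : ι) : ℝ := θ ^ 2 / (128 * b ^ 2 * K i ^ 2)

theorem RwO.Er_nonneg (_h : RwO lam mu sc ell g c1 b R E r K θ L) (i : ι) : 0 ≤ Er K θ b i := by
  unfold Er
  positivity

/-- the system of rows of the extended letters -/
theorem RwO.sys (h : RwO lam mu sc ell g c1 b R E r K θ L) :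
    Sys Sigma.fst (cumT (Mo lam mu)) (wo lam r (Er K θ b)) (fun ω : Σ i, Option (V i) => K ω.1)
      (θ / (8 * b)) θ b where
  m0 := wo_nonneg h.ref.nonneg h.rws.r0 h.Er_nonneg
  K0 := fun ω => by have := h.K1 ω.1; linarith
  s0 := by have := h.th; positivity
  th := by have := h.th; linarith
  small := by
    have hb : (0 : ℝ) < b := by exact_mod_cast h.b1
    rw [mul_div_assoc', div_le_iff₀ (by positivity)]
    linarith
  coord := by
    have hb : (0 : ℝ) < b := by exact_mod_cast h.b1
    rintro ⟨i, a⟩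
    rw [Fintype.sum_sigma, Finset.sum_eq_single i]
    · simp only [if_true, one_mul]
      rw [Fintype.sum_option]
      have hKi := h.K1 i
      have h1 : ∑ a : V i, wo lam r (Er K θ b) ⟨i, some a⟩ * K i ^ 2 = K i ^ 2 * r i := by
        have : ∀ a : V i, wo lam r (Er K θ b) ⟨i, some a⟩ * K i ^ 2
            = lam i a * (K i ^ 2 * r i) := by
          intro a
          show lam i a * r i * K i ^ 2 = _
          ring
        rw [Finset.sum_congr rfl fun a _ => this a, ← Finset.sum_mul, h.ref.sum_one, one_mul]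
      rw [h1]
      have h2 : wo lam r (Er K θ b) (⟨i, none⟩ : Σ i, Option (V i)) * K i ^ 2
          = θ ^ 2 / (128 * b ^ 2) := by
        show Er K θ b i * K i ^ 2 = _
        unfold Er
        have hK0 : K i ≠ 0 := by positivity
        field_simp
      rw [h2]
      have h3 : K i ^ 2 * r i ≤ θ ^ 2 / (128 * b ^ 2) := by
        rw [le_div_iff₀ (by positivity)]
        have := h.coord i
        linarith
      calc _ ≤ θ ^ 2 / (128 * b ^ 2) + θ ^ 2 / (128 * b ^ 2) := by linarith
        _ = _ := by field_simp; ring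
    · intro j _ hj
      apply Finset.sum_eq_zero
      intro b _
      rw [if_neg hj, zero_mul]
    · intro h; exact absurd (Finset.mem_univ _) h
  row := by
    intro e he ω
    have key : ∀ ω, rowo lam mu (wo lam r (Er K θ b)) e ω ≤ K ω.1 * (e.factorial * θ ^ e) := by
      have hth : 0 ≤ θ := by linarith [h.th]
      rintro ⟨i, a⟩
      have hK := h.K1 i
      cases a with
      | none =>
        have := rowo_no (lam := lam) (r := r) (E := Er K θ b) h.sum e i
        rw [show (⟨i, none⟩ : Σ i, Option (V i)) = no i from rfl, this]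
        by_cases he0 : e = 0
        · subst he0
          simp only [if_true, Nat.factorial_zero, Nat.cast_one, pow_zero, mul_one]
          exact hK
        · rw [if_neg he0]
          have : (0 : ℝ) ≤ K i := by linarith
          exact mul_nonneg this (by positivity)
      | some a =>
        have := rowo_em (lam := lam) (r := r) (E := Er K θ b) h.sum e ⟨i, a⟩
        rw [show (⟨i, some a⟩ : Σ i, Option (V i)) = em ⟨i, a⟩ from rfl, this]
        exact h.rws.nrm_le h.sum h.ref.nonneg h.ref.sum_one h.K1 h.g1 (by omega) ⟨i, a⟩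
    exact key ω

/-- the quotient of the weights -/
noncomputable def qo (ell : J → ℝ) (g c1 : ℝ) (b : ℕ) (θ : ℝ) (l : Option J) : ℝ :=
  Real.exp (-(2 * (c1 + g) * el ell l)) / (b * θ) ^ 2

theorem pr_qo (τ : List (Option J)) :
    pr (qo ell g c1 b θ) τ = pr (fun l => Real.exp (-(c1 * el ell l)) / Real.exp (g * el ell l)) τ ^ 2
      / ((b * θ) ^ 2) ^ τ.length := by
  induction τ with
  | nil => simp [pr_nil]
  | cons l τ ih =>
    rw [pr_cons, pr_cons, ih, List.length_cons, pow_succ ((b * θ) ^ 2)]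
    unfold qo
    have h1 : Real.exp (-(2 * (c1 + g) * el ell l)) =
        (Real.exp (-(c1 * el ell l)) / Real.exp (g * el ell l)) ^ 2 := by
      rw [← Real.exp_sub, ← Real.exp_nat_mul]
      congr 1
      push_cast
      ring
    rw [h1, mul_pow (Real.exp (-(c1 * el ell l)) / Real.exp (g * el ell l))]
    rw [div_mul_div_comm, mul_comm ((b * θ) ^ 2)]

/-- **Typed norms with the root `o`.** -/
theorem RwO.typ (h : RwO lam mu sc ell g c1 b R E r K θ L) [DecidableEq J]
    {VV : Option J → Finset (Σ i, Option (V i))} (hV : ∀ l ω, ω ∈ VV l ↔ sc ω.1 = l)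
    {τ : List (Option J)} (hlen : τ.length + 1 ≤ b) :
    ∑ ω ∈ Lt VV (none :: τ), Tn lam mu R E (ω : Multiset _) ^ 2 ≤
      pr (fun l => Real.exp (-(c1 * el ell l)) / Real.exp (g * el ell l)) τ ^ 2 := by
  have hb : (0 : ℝ) < b := by exact_mod_cast h.b1
  have hth : 0 < θ := by linarith [h.th]
  have hq : ∀ l, 0 ≤ qo ell g c1 b θ l := fun l => by unfold qo; positivity
  have hqE : ∀ i, E i ≤ qo ell g c1 b θ (sc i) * Er K θ b i := by
    intro i
    have hKi := h.K1 i
    unfold qo Er
    rw [div_mul_div_comm, le_div_iff₀ (by positivity)]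
    have h1 := mul_le_mul_of_nonneg_right (h.legE i) (sq_nonneg θ)
    calc E i * ((↑b * θ) ^ 2 * (128 * ↑b ^ 2 * K i ^ 2))
        = (128 * b ^ 4 * K i ^ 2 * E i) * θ ^ 2 := by ring
      _ ≤ _ := h1
  have h1 := typ_bound_rows (V := VV) (m0 := wo lam R E) (q := qo ell g c1 b θ)
    (isCumC_Mo h.sum) h.sys
    (wo_nonneg h.ref.nonneg h.R0 h.E0) hq (l := none) (τ := τ) ?_ (by omega)
    (A := 1 / 2) (by norm_num) ?_
  · refine h1.trans ?_
    rw [pr_qo]
    have hfac : ((τ.length).factorial : ℝ) ≤ (b : ℝ) ^ τ.length := by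
      have h2 : ((τ.length).factorial : ℝ) ≤ ((τ.length : ℕ) : ℝ) ^ τ.length := by
        exact_mod_cast Nat.factorial_le_pow _
      refine h2.trans (pow_le_pow_left₀ (Nat.cast_nonneg _) ?_ _)
      exact_mod_cast (by omega : τ.length ≤ b)
    have h3 : (2 * (1 / 2 : ℝ) * ((τ.length).factorial * θ ^ τ.length)) ^ 2 ≤
        ((b * θ) ^ 2) ^ τ.length := by
      rw [← pow_mul, mul_comm 2 τ.length, pow_mul, mul_pow (b : ℝ) θ]
      refine pow_le_pow_left₀ (by positivity) ?_ 2
      have := mul_le_mul_of_nonneg_right hfac (by positivity : (0 : ℝ) ≤ θ ^ τ.length)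
      linarith
    have h4 : (0 : ℝ) < ((b * θ) ^ 2) ^ τ.length := by positivity
    rw [div_mul_eq_mul_div, div_le_iff₀ h4]
    exact mul_le_mul_of_nonneg_left h3 (sq_nonneg _)
  · rintro l hl ⟨i, a⟩ ha
    have hi : sc i = l := (hV _ _).1 ha
    subst hi
    cases a with
    | none => exact hqE i
    | some a =>
      show lam i a * R i ≤ qo ell g c1 b θ (sc i) * (lam i a * r i)
      have h2 : R i ≤ qo ell g c1 b θ (sc i) * r i := by
        unfold qo
        rw [div_mul_eq_mul_div, le_div_iff₀ (by positivity)]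
        exact h.leg i
      have := mul_le_mul_of_nonneg_left h2 (h.ref.nonneg i a)
      linarith
  · by_cases hex : ∃ i, sc i = none
    · obtain ⟨i, hi⟩ := hex
      rw [sum_VV hV]
      have h2 : (univ.filter fun i => sc i = none) = {i} := by
        ext j
        rw [Finset.mem_filter, Finset.mem_singleton]
        constructor
        · rintro ⟨_, hj⟩
          exact h.uniq j i hj hi
        · rintro rfl
          exact ⟨Finset.mem_univ _, hi⟩
      rw [h2, Finset.sum_singleton]
      have h3 : ∑ a, wo lam R E (em (⟨i, a⟩ : Σ i, V i)) * K (em (⟨i, a⟩ : Σ i, V i)).1 ^ 2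
          = K i ^ 2 * R i := by
        have : ∀ a : V i, wo lam R E (em (⟨i, a⟩ : Σ i, V i)) * K (em (⟨i, a⟩ : Σ i, V i)).1 ^ 2
            = lam i a * (K i ^ 2 * R i) := by
          intro a
          show lam i a * R i * K i ^ 2 = _
          ring
        rw [Finset.sum_congr rfl fun a _ => this a, ← Finset.sum_mul, h.ref.sum_one, one_mul]
      rw [h3]
      show E i * K i ^ 2 + _ ≤ _
      have := h.root i hi
      linarith
    · have h2 : VV none = ∅ := by
        ext ω
        rw [hV]
        constructor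
        · intro h3
          exact absurd ⟨_, h3⟩ hex
        · intro h3
          simp at h3
      rw [h2, Finset.sum_empty]
      norm_num

/-- The Hilbert-Schmidt norm bounds the bilinear form. -/
theorem BV_of_hs {Ω : Type*} {Λ : Type*} {VV : Λ → Finset Ω} {T : Multiset Ω → ℝ} {l m : Λ}
    {w : ℝ} (hw : 0 ≤ w) (h : ∑ ω ∈ Lt VV [l, m], T (ω : Multiset Ω) ^ 2 ≤ w ^ 2) :
    BV w (VV l) (VV m) fun p q => T (p ::ₘ q ::ₘ 0 : Multiset Ω) := by
  intro u v
  rw [sum_Lt_cons] at h
  simp only [sum_Lt_cons, sum_Lt_nil] at h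
  have e1 : ∀ p q : Ω, ((p :: q :: [] : List Ω) : Multiset Ω) = p ::ₘ q ::ₘ 0 := fun _ _ => rfl
  simp only [e1] at h
  have h1 := Finset.sum_mul_sq_le_sq_mul_sq (VV l ×ˢ VV m)
    (fun z => T (z.1 ::ₘ z.2 ::ₘ 0 : Multiset Ω)) (fun z => u z.1 * v z.2)
  have h2 : ∑ z ∈ VV l ×ˢ VV m, T (z.1 ::ₘ z.2 ::ₘ 0 : Multiset Ω) ^ 2 ≤ w ^ 2 := by
    rw [Finset.sum_product]
    exact h
  have h3 : ∑ z ∈ VV l ×ˢ VV m, (u z.1 * v z.2) ^ 2 =
      (∑ p ∈ VV l, u p ^ 2) * ∑ q ∈ VV m, v q ^ 2 := by
    rw [Finset.sum_product, Finset.sum_mul_sum]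
    refine Finset.sum_congr rfl fun p _ => Finset.sum_congr rfl fun q _ => by ring
  have h4 : ∑ z ∈ VV l ×ˢ VV m, T (z.1 ::ₘ z.2 ::ₘ 0 : Multiset Ω) * (u z.1 * v z.2) =
      ∑ p ∈ VV l, ∑ q ∈ VV m, u p * T (p ::ₘ q ::ₘ 0 : Multiset Ω) * v q := by
    rw [Finset.sum_product]
    refine Finset.sum_congr rfl fun p _ => Finset.sum_congr rfl fun q _ => by ring
  rw [h3, h4] at h1
  have hu : 0 ≤ ∑ p ∈ VV l, u p ^ 2 := Finset.sum_nonneg fun _ _ => sq_nonneg _
  have hv : 0 ≤ ∑ q ∈ VV m, v q ^ 2 := Finset.sum_nonneg fun _ _ => sq_nonneg _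
  refine abs_le_of_sq_le_sq ?_ (by positivity)
  refine h1.trans ?_
  rw [mul_pow, mul_pow, Real.sq_sqrt hu, Real.sq_sqrt hv, mul_assoc]
  exact mul_le_mul_of_nonneg_right h2 (mul_nonneg hu hv)

/-- the pair bounds -/
noncomputable def No (N : J → J → ℝ) (ell : J → ℝ) (g c1 : ℝ) : Option J → Option J → ℝ
  | some l, some m => N l m
  | l, m => (Real.exp (-(c1 * el ell l)) / Real.exp (g * el ell l)) *
      (Real.exp (-(c1 * el ell m)) / Real.exp (g * el ell m))

/-- the letters of the ordinary types -/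
noncomputable def Vord {Ω : Type*} (VV : Option J → Finset Ω) : Option J → Finset Ω
  | none => ∅
  | some j => VV (some j)

theorem No_none_left (N : J → J → ℝ) (m : Option J) : No N ell g c1 none m =
    (Real.exp (-(c1 * el ell none)) / Real.exp (g * el ell none)) *
      (Real.exp (-(c1 * el ell m)) / Real.exp (g * el ell m)) := by
  cases m <;> rfl

theorem No_none_right (N : J → J → ℝ) (l : Option J) : No N ell g c1 l none =
    (Real.exp (-(c1 * el ell l)) / Real.exp (g * el ell l)) *
      (Real.exp (-(c1 * el ell none)) / Real.exp (g * el ell none)) := by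
  cases l <;> rfl

/-- **`BdT` for all types** from `BdT` for the ordinary types and the rows. -/
theorem bdt_o (h : RwO lam mu sc ell g c1 b R E r K θ L) [DecidableEq J]
    (hb : 2 ≤ b) (hg : 0 ≤ g) (hc1 : 0 ≤ c1) (hell : ∀ j, 0 ≤ ell j)
    {VV : Option J → Finset (Σ i, Option (V i))} (hV : ∀ l ω, ω ∈ VV l ↔ sc ω.1 = l)
    {N : J → J → ℝ}
    (hT : BdT (fun j => VV (some j)) b (fun j => Real.exp (g * ell j))
      (fun j => Real.exp (-(c1 * ell j))) N (Tn lam mu R E)) :
    BdT VV b (fun l => Real.exp (g * el ell l)) (fun l => Real.exp (-(c1 * el ell l)))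
      (No N ell g c1) (Tn lam mu R E) := by
  have hb1 := h.b1
  -- the quotients
  set q : Option J → ℝ := fun l => Real.exp (-(c1 * el ell l)) / Real.exp (g * el ell l) with hq
  have hq0 : ∀ l, 0 ≤ q l := fun l => by rw [hq]; positivity
  have hqn : q none = 1 := by rw [hq]; simp
  have hq1 : ∀ l, q l ≤ 1 := fun l => by
    have h1 := el_nonneg hell l
    rw [hq]
    beta_reduce
    rw [← Real.exp_sub, Real.exp_le_one_iff]
    have h2 := mul_nonneg hc1 h1
    have h3 := mul_nonneg hg h1
    linarith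
  have key : ∀ τ : List (Option J), τ.length ≤ b → none ∈ τ →
      ∑ ω ∈ Lt VV τ, Tn lam mu R E (ω : Multiset _) ^ 2 ≤ pr q τ ^ 2 := by
    intro τ hlen hτ
    obtain ⟨τ', hp⟩ : ∃ τ', τ.Perm (none :: τ') := ⟨τ.erase none, List.perm_cons_erase hτ⟩
    have hl := hp.length_eq
    rw [List.length_cons] at hl
    rw [typ_perm hp fun S => Tn lam mu R E S ^ 2, pr_perm q hp, pr_cons, hqn, one_mul]
    exact h.typ hV (by omega)
  -- types without `none`
  have hLt : ∀ τ : List J, ∀ F : List (Σ i, Option (V i)) → ℝ,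
      ∑ ω ∈ Lt VV (τ.map some), F ω = ∑ ω ∈ Lt (fun j => VV (some j)) τ, F ω := by
    intro τ
    induction τ with
    | nil => intro F; simp [sum_Lt_nil]
    | cons l τ ih =>
      intro F
      rw [List.map_cons, sum_Lt_cons, sum_Lt_cons]
      exact Finset.sum_congr rfl fun a _ => ih _
  have hsome : ∀ τ : List (Option J), none ∉ τ → ∃ τ' : List J, τ = τ'.map some := by
    intro τ
    induction τ with
    | nil => intro _; exact ⟨[], rfl⟩
    | cons l τ ih =>
      intro hτ
      rw [List.mem_cons, not_or] at hτ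
      obtain ⟨τ', rfl⟩ := ih hτ.2
      cases l with
      | none => exact absurd rfl hτ.1
      | some j => exact ⟨j :: τ', rfl⟩
  have hpr : ∀ (f : Option J → ℝ) (τ : List J), pr f (τ.map some) = pr (fun j => f (some j)) τ := by
    intro f τ
    induction τ with
    | nil => simp [pr_nil]
    | cons l τ ih => rw [List.map_cons, pr_cons, pr_cons, ih]
  have hNn : ∀ m, No N ell g c1 none m = q none * q m := fun m => No_none_left N m
  have hNn' : ∀ m, No N ell g c1 m none = q m * q none := fun m => No_none_right N m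
  have hpair : ∀ l m : Option J, l = none ∨ m = none →
      ∑ ω ∈ Lt VV [l, m], Tn lam mu R E (ω : Multiset _) ^ 2 ≤ (q l * q m) ^ 2 := by
    intro l m hlm
    have h1 := key [l, m] (by simpa using hb) (by
      rcases hlm with rfl | rfl
      · simp
      · simp)
    rwa [pr_cons, pr_cons, pr_nil, mul_one] at h1
  refine ⟨?_, ?_, ?_, ?_⟩
  · -- one
    intro l
    cases l with
    | none =>
      have h1 := key [none] (by simp; omega) (by simp)
      rw [pr_cons, pr_nil, hqn] at h1
      refine h1.trans ?_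
      simp
    | some j =>
      have h1 := hT.one j
      rw [← hLt] at h1
      exact h1
  · -- two
    intro l m
    cases l with
    | none => rw [hNn]; exact hpair none m (Or.inl rfl)
    | some l =>
      cases m with
      | none => rw [hNn']; exact hpair (some l) none (Or.inr rfl)
      | some m =>
        have h1 := hT.two l m
        rw [← hLt] at h1
        exact h1
  · -- op
    intro l m
    cases l with
    | none =>
      have h1 := BV_of_hs (mul_nonneg (hq0 none) (hq0 m)) (hpair none m (Or.inl rfl))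
      convert h1 using 2
      rw [hqn, one_mul, hq]
      simp
    | some l =>
      cases m with
      | none =>
        refine BV_of_hs (by positivity) ((hpair (some l) none (Or.inr rfl)).trans ?_)
        refine pow_le_pow_left₀ (mul_nonneg (hq0 _) (hq0 _)) ?_ 2
        rw [hqn, mul_one]
        have h2 := hq1 (some l)
        have h3 : (1 : ℝ) ≤ Real.exp (g * ell l) := Real.one_le_exp (mul_nonneg hg (hell l))
        simp only [el_none, el_some, mul_zero, neg_zero, Real.exp_zero, mul_one, div_one]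
        linarith
      | some m => exact hT.op l m
  · -- hs
    intro τ h3 hlen
    by_cases hτ : none ∈ τ
    · exact key τ hlen hτ
    · obtain ⟨τ', rfl⟩ := hsome τ hτ
      rw [List.length_map] at h3 hlen
      have h1 := hT.hs τ' h3 hlen
      rw [← hLt] at h1
      rw [hpr]
      exact h1

end Vale.Agent.P042.H564.Oo
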