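import Vale.Agent.P042.H678.RowM
import Vale.Agent.P042.H48.Tens

/-!
# P042, block [B] for a tilt: one more coordinate with two values

A law `mu` on `∀ i, V i` and a function `phi`, `|phi| ≤ 1`.  The law `ext mu phi` on
`Bool × ∀ i, V i` has density `(1 ± phi / 2) / 2`; pinning the new coordinate is the tilt of `mu` by
`1 + phi / 2`.
-/

set_option autoImplicit false
set_option linter.unusedSectionVars false

namespace Vale.Agent.P042.H564

open Finset Vale.Agent.P042.H461 Vale.Agent.P042.H416 Vale.Agent.P042.H742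
open Vale.Agent.P042.H779 (marg m1)

variable {ι : Type*} [Fintype ι] [DecidableEq ι] {V : ι → Type}

/-- one more coordinate, with two values -/
def OV (V : ι → Type) : Option ι → Type
  | none => Bool
  | some i => V i

instance instFintypeOV [∀ i, Fintype (V i)] : ∀ o : Option ι, Fintype (OV V o)
  | none => inferInstanceAs (Fintype Bool)
  | some i => inferInstanceAs (Fintype (V i))

instance instDecidableEqOV [∀ i, DecidableEq (V i)] : ∀ o : Option ι, DecidableEq (OV V o)
  | none => inferInstanceAs (DecidableEq Bool)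
  | some i => inferInstanceAs (DecidableEq (V i))

/-- forget the new coordinate -/
def dn (y : ∀ o, OV V o) : ∀ i, V i := fun i => y (some i)

/-- the new coordinate -/
def bt (y : ∀ o, OV V o) : Bool := y none

/-- add the new coordinate -/
def up (b : Bool) (x : ∀ i, V i) : ∀ o, OV V o
  | none => b
  | some i => x i

@[simp] theorem dn_up (b : Bool) (x : ∀ i, V i) : dn (up b x) = x := rfl

@[simp] theorem bt_up (b : Bool) (x : ∀ i, V i) : bt (up b x) = b := rfl

theorem up_dn (y : ∀ o, OV V o) : up (bt y) (dn y) = y := by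
  funext o
  cases o <;> rfl

/-- points of the extended space -/
def eqv : (∀ o, OV V o) ≃ Bool × (∀ i, V i) where
  toFun y := (bt y, dn y)
  invFun p := up p.1 p.2
  left_inv y := up_dn y
  right_inv p := by
    ext <;> rfl

variable [∀ i, Fintype (V i)] [∀ i, DecidableEq (V i)]

theorem sum_ov {M : Type*} [AddCommMonoid M] (F : (∀ o, OV V o) → M) :
    ∑ y, F y = ∑ x, F (up true x) + ∑ x, F (up false x) := by
  rw [← Equiv.sum_comp (eqv (V := V)).symm F, Fintype.sum_prod_type, Fintype.sum_bool]
  rfl

/-- sign of the new coordinate -/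
def sg (b : Bool) : ℝ := if b then 1 else -1

@[simp] theorem sg_true : sg true = 1 := rfl

@[simp] theorem sg_false : sg false = -1 := by simp [sg]

/-- the extended law -/
noncomputable def ext (mu phi : (∀ i, V i) → ℝ) (y : ∀ o, OV V o) : ℝ :=
  mu (dn y) * ((1 + sg (bt y) * (phi (dn y) / 2)) / 2)

theorem ext_up (mu phi : (∀ i, V i) → ℝ) (b : Bool) (x : ∀ i, V i) :
    ext mu phi (up b x) = mu x * ((1 + sg b * (phi x / 2)) / 2) := rfl

variable {mu phi : (∀ i, V i) → ℝ}

theorem sg_phi (hphi : ∀ x, |phi x| ≤ 1) (b : Bool) (x : ∀ i, V i) :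
    1 / 2 ≤ 1 + sg b * (phi x / 2) ∧ 1 + sg b * (phi x / 2) ≤ 3 / 2 := by
  have h1 := abs_le.1 (hphi x)
  cases b
  · rw [sg_false]
    constructor <;> linarith [h1.1, h1.2]
  · rw [sg_true]
    constructor <;> linarith [h1.1, h1.2]

theorem isLaw_ext (hmu : IsLaw mu) (hphi : ∀ x, |phi x| ≤ 1) : IsLaw (ext mu phi) := by
  constructor
  · intro y
    unfold ext
    have h1 := (sg_phi hphi (bt y) (dn y)).1
    exact mul_nonneg (hmu.1 _) (by linarith)
  · rw [sum_ov, ← Finset.sum_add_distrib, ← hmu.2]
    refine Finset.sum_congr rfl fun x _ => ?_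
    rw [ext_up, ext_up, sg_true, sg_false]
    ring

/-- rates or constants on the extended index set -/
def ox {α : Type*} (t0 : α) (t : ι → α) : Option ι → α
  | none => t0
  | some i => t i

@[simp] theorem ox_none {α : Type*} (t0 : α) (t : ι → α) : ox t0 t none = t0 := rfl

@[simp] theorem ox_some {α : Type*} (t0 : α) (t : ι → α) (i : ι) : ox t0 t (some i) = t i := rfl

/-- the extended reference -/
noncomputable def olam (lam : ∀ i, V i → ℝ) : ∀ o, OV V o → ℝ
  | none => fun _ => 1 / 2
  | some i => lam i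

theorem ref_ext {lam : ∀ i, V i → ℝ} {L : ℝ} (hR : Ref lam L) (hL : Real.log 2 ≤ L) :
    Ref (olam lam) L where
  nonneg := by
    intro o a
    cases o with
    | none => exact (by norm_num : (0 : ℝ) ≤ 1 / 2)
    | some i => exact hR.nonneg i a
  sum_one := by
    intro o
    cases o with
    | none =>
      show ∑ a : Bool, (1 / 2 : ℝ) = 1
      simp
    | some i => exact hR.sum_one i
  atoms := by
    intro o a
    cases o with
    | none =>
      right
      show Real.exp (-L) ≤ 1 / 2
      have h1 : Real.exp (-L) ≤ Real.exp (-Real.log 2) := Real.exp_le_exp.2 (by linarith)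
      rw [Real.exp_neg (Real.log 2), Real.exp_log (by norm_num)] at h1
      linarith
    | some i => exact hR.atoms i a

/-! ### sets -/

/-- old sets -/
abbrev so (S : Finset ι) : Finset (Option ι) := S.map Function.Embedding.some

/-- old sets with the new coordinate -/
abbrev sn (S : Finset ι) : Finset (Option ι) := insertNone S

theorem mem_so {S : Finset ι} {i : ι} : some i ∈ so S ↔ i ∈ S := by
  simp [so]

theorem none_so {S : Finset ι} : (none : Option ι) ∉ so S := by
  simp [so]

theorem mem_sn {S : Finset ι} {i : ι} : some i ∈ sn S ↔ i ∈ S := by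
  simp [sn]

theorem none_sn {S : Finset ι} : (none : Option ι) ∈ sn S := by
  simp [sn]

theorem sn_eq (S : Finset ι) : sn S = insert none (so S) := by
  ext o
  cases o <;> simp [sn, so]

theorem forall_so {S : Finset ι} {p : Option ι → Prop} : (∀ o ∈ so S, p o) ↔ ∀ i ∈ S, p (some i) := by
  constructor
  · intro h i hi
    exact h _ (mem_so.2 hi)
  · intro h o ho
    cases o with
    | none => exact absurd ho none_so
    | some i => exact h i (mem_so.1 ho)

theorem forall_sn {S : Finset ι} {p : Option ι → Prop} :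
    (∀ o ∈ sn S, p o) ↔ p none ∧ ∀ i ∈ S, p (some i) := by
  constructor
  · intro h
    exact ⟨h _ none_sn, fun i hi => h _ (mem_sn.2 hi)⟩
  · intro h o ho
    cases o with
    | none => exact h.1
    | some i => exact h.2 i (mem_sn.1 ho)

theorem sum_sets {M : Type*} [AddCommMonoid M] (F : Finset (Option ι) → M) :
    ∑ R, F R = ∑ S : Finset ι, F (so S) + ∑ S : Finset ι, F (sn S) := by
  rw [← Finset.sum_filter_not_add_sum_filter univ (fun R : Finset (Option ι) => none ∈ R)]
  congr 1
  · refine Finset.sum_nbij' (fun R => eraseNone R) (fun S => so S) (by simp) ?_ ?_ ?_ ?_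
    · intro S _
      simp [so]
    · intro R hR
      have h1 : none ∉ R := by simpa using hR
      rw [so, map_some_eraseNone, Finset.erase_eq_of_notMem h1]
    · intro S _
      simp [so]
    · intro R hR
      have h1 : none ∉ R := by simpa using hR
      rw [so, map_some_eraseNone, Finset.erase_eq_of_notMem h1]
  · refine Finset.sum_nbij' (fun R => eraseNone R) (fun S => sn S) (by simp) ?_ ?_ ?_ ?_
    · intro S _
      simp [sn]
    · intro R hR
      have h1 : none ∈ R := by simpa using hR
      rw [sn, insertNone_eraseNone, Finset.insert_eq_of_mem h1]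
    · intro S _
      simp [sn]
    · intro R hR
      have h1 : none ∈ R := by simpa using hR
      rw [sn, insertNone_eraseNone, Finset.insert_eq_of_mem h1]

theorem prod_so {M : Type*} [CommMonoid M] (S : Finset ι) (f : Option ι → M) :
    ∏ o ∈ so S, f o = ∏ i ∈ S, f (some i) := by
  rw [so, Finset.prod_map]
  rfl

theorem prod_sn {M : Type*} [CommMonoid M] (S : Finset ι) (f : Option ι → M) :
    ∏ o ∈ sn S, f o = f none * ∏ i ∈ S, f (some i) := by
  rw [sn_eq, Finset.prod_insert none_so, prod_so]

theorem so_compl (S : Finset ι) : (so S)ᶜ = sn Sᶜ := by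
  ext o
  cases o <;> simp [sn, so]

theorem sn_compl (S : Finset ι) : (sn S)ᶜ = so Sᶜ := by
  ext o
  cases o <;> simp [sn, so]

theorem bw_so (t0 : ℝ) (t : ι → ℝ) (S : Finset ι) : bw (ox t0 t) (so S) = (1 - t0) * bw t S := by
  unfold bw
  rw [so_compl, prod_so, prod_sn]
  simp only [ox_none, ox_some]
  ring

theorem bw_sn (t0 : ℝ) (t : ι → ℝ) (S : Finset ι) : bw (ox t0 t) (sn S) = t0 * bw t S := by
  unfold bw
  rw [sn_compl, prod_so, prod_sn]
  simp only [ox_none, ox_some]
  ring

theorem card_so (S : Finset ι) : (so S).card = S.card := by simp [so]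

theorem card_sn (S : Finset ι) : (sn S).card = S.card + 1 := by simp [sn]

theorem lw_so (lam : ∀ i, V i → ℝ) (S : Finset ι) (y : ∀ o, OV V o) :
    lw (olam lam) (so S) y = lw lam S (dn y) := by
  unfold lw
  rw [prod_so]
  rfl

theorem lw_sn (lam : ∀ i, V i → ℝ) (S : Finset ι) (y : ∀ o, OV V o) :
    lw (olam lam) (sn S) y = 1 / 2 * lw lam S (dn y) := by
  unfold lw
  rw [prod_sn]
  rfl

/-! ### marginals -/

theorem marg_so' (nu : (∀ o, OV V o) → ℝ) (S : Finset ι) (y : ∀ o, OV V o) :
    marg nu (so S) y = marg (fun x => nu (up true x) + nu (up false x)) S (dn y) := by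
  unfold marg
  rw [sum_ov, ← Finset.sum_add_distrib]
  refine Finset.sum_congr rfl fun x _ => ?_
  have h1 : ∀ b, (∀ o ∈ so S, (up b x : ∀ o, OV V o) o = y o) ↔ ∀ i ∈ S, x i = dn y i :=
    fun b => forall_so
  by_cases h : ∀ i ∈ S, x i = dn y i
  · rw [if_pos h, if_pos ((h1 true).2 h), if_pos ((h1 false).2 h)]
  · rw [if_neg h, if_neg fun h2 => h ((h1 true).1 h2), if_neg fun h2 => h ((h1 false).1 h2),
      add_zero]

theorem marg_sn' (nu : (∀ o, OV V o) → ℝ) (S : Finset ι) (y : ∀ o, OV V o) :
    marg nu (sn S) y = marg (fun x => nu (up (bt y) x)) S (dn y) := by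
  unfold marg
  have h1 : ∀ b x, (∀ o ∈ sn S, (up b x : ∀ o, OV V o) o = y o) ↔
      b = bt y ∧ ∀ i ∈ S, x i = dn y i := fun b x => forall_sn
  have h2 : ∀ b, ∑ x, (if (∀ o ∈ sn S, (up b x : ∀ o, OV V o) o = y o) then nu (up b x) else 0) =
      if b = bt y then ∑ x, (if (∀ i ∈ S, x i = dn y i) then nu (up b x) else 0) else 0 := by
    intro b
    by_cases hb : b = bt y
    · rw [if_pos hb]
      refine Finset.sum_congr rfl fun x _ => ?_
      by_cases h : ∀ i ∈ S, x i = dn y i
      · rw [if_pos h, if_pos ((h1 b x).2 ⟨hb, h⟩)]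
      · rw [if_neg h, if_neg fun h3 => h ((h1 b x).1 h3).2]
    · rw [if_neg hb]
      exact Finset.sum_eq_zero fun x _ => if_neg fun h3 => hb ((h1 b x).1 h3).1
  rw [sum_ov, h2, h2]
  cases bt y <;> simp

theorem marg_so (mu phi : (∀ i, V i) → ℝ) (S : Finset ι) (y : ∀ o, OV V o) :
    marg (ext mu phi) (so S) y = marg mu S (dn y) := by
  rw [marg_so']
  congr 1
  funext x
  rw [ext_up, ext_up, sg_true, sg_false]
  ring

theorem marg_lin (c : ℝ) (f g : (∀ i, V i) → ℝ) (S : Finset ι) (x : ∀ i, V i) :
    marg (fun z => (f z + c * g z) / 2) S x = (marg f S x + c * marg g S x) / 2 := by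
  unfold marg
  rw [Finset.mul_sum, ← Finset.sum_add_distrib, Finset.sum_div]
  refine Finset.sum_congr rfl fun z _ => ?_
  split_ifs <;> ring

theorem marg_sn (mu phi : (∀ i, V i) → ℝ) (S : Finset ι) (y : ∀ o, OV V o) :
    marg (ext mu phi) (sn S) y =
      (marg mu S (dn y) + sg (bt y) / 2 * marg (fun x => mu x * phi x) S (dn y)) / 2 := by
  rw [marg_sn', ← marg_lin]
  congr 1
  funext x
  rw [ext_up]
  ring

theorem abs_marg_le (hmu : ∀ x, 0 ≤ mu x) (hphi : ∀ x, |phi x| ≤ 1) (S : Finset ι)
    (x : ∀ i, V i) : |marg (fun x => mu x * phi x) S x| ≤ marg mu S x := by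
  unfold marg
  refine (Finset.abs_sum_le_sum_abs _ _).trans (Finset.sum_le_sum fun z _ => ?_)
  split_ifs
  · rw [abs_mul, abs_of_nonneg (hmu z)]
    exact mul_le_of_le_one_right (hmu z) (hphi z)
  · simp

end Vale.Agent.P042.H564
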