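import Vale.Agent.P042.H564.Bin

/-!
# P042, block [B] for a tilt: the row of a function

`rowPhi`: the energy of the connected densities through `phi`; it is at most
`108 d! (d+1)^d` times the mean over `R` of the variance of `E[phi | x_R]`.
-/

set_option autoImplicit false
set_option linter.unusedSectionVars false

namespace Vale.Agent.P042.H564

open Finset Vale.Agent.P042.H461 Vale.Agent.P042.H416 Vale.Agent.P042.H742
open Vale.Agent.P042.H779 (marg m1)
open Vale.Agent.P042.H678 (I1M)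

variable {ι : Type*} [Fintype ι] [DecidableEq ι] {V : ι → Type} [∀ i, Fintype (V i)]
  [∀ i, DecidableEq (V i)] {mu phi : (∀ i, V i) → ℝ}

/-- the law of the old coordinates -/
def old (nu : (∀ o, OV V o) → ℝ) (x : ∀ i, V i) : ℝ := nu (up true x) + nu (up false x)

theorem push_dn (nu : (∀ o, OV V o) → ℝ) : push dn nu = old nu := by
  funext x
  unfold push old
  rw [Finset.sum_filter, sum_ov]
  have h1 : ∀ b, ∑ z, (if dn (up b z : ∀ o, OV V o) = x then nu (up b z) else 0) =
      nu (up b x) := by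
    intro b
    rw [Finset.sum_eq_single x]
    · exact if_pos rfl
    · intro z _ hz
      exact if_neg hz
    · intro h
      exact absurd (Finset.mem_univ _) h
  rw [h1, h1]

theorem old_ext (mu phi : (∀ i, V i) → ℝ) : old (ext mu phi) = mu := by
  funext x
  unfold old
  rw [ext_up, ext_up, sg_true, sg_false]
  ring

theorem isLaw_old {nu : (∀ o, OV V o) → ℝ} (h : IsLaw nu) : IsLaw (old nu) := by
  constructor
  · intro x
    exact add_nonneg (h.1 _) (h.1 _)
  · rw [← h.2, sum_ov, ← Finset.sum_add_distrib]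
    rfl

theorem KL_old_le {nu mu' : (∀ o, OV V o) → ℝ} (hnu : ∀ y, 0 ≤ nu y) (hmu : ∀ y, 0 ≤ mu' y)
    (hac : AC nu mu') : KL (old nu) (old mu') ≤ KL nu mu' := by
  rw [← push_dn, ← push_dn]
  exact KL_push_le dn hnu hmu hac

theorem KL_so (nu mu' : (∀ o, OV V o) → ℝ) (S : Finset ι) :
    KL (push (rst (so S)) nu) (push (rst (so S)) mu') =
      KL (push (rst S) (old nu)) (push (rst S) (old mu')) := by
  rw [KL_rst, KL_rst, sum_ov, ← Finset.sum_add_distrib]
  refine Finset.sum_congr rfl fun x _ => ?_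
  rw [marg_so', marg_so', marg_so', marg_so']
  simp only [dn_up]
  unfold old
  ring

/-- the entropy inequality for the extended law -/
theorem meik_ext {t : ι → ℝ} {ε e1 K τ : ℝ} (ht0 : ∀ i, 0 ≤ t i) (ht1 : ∀ i, t i ≤ 1)
    (hτ0 : 0 ≤ τ) (hτ1 : τ ≤ 1) (hε : 0 ≤ ε) (he1 : 0 ≤ e1) (hmu : IsLaw mu)
    (hphi : ∀ x, |phi x| ≤ 1) (h : MEIK t ε e1 K mu) :
    MEIK (ox τ t) (ε + τ) e1 K (ext mu phi) := by
  intro nu hnu hK
  have hext := isLaw_ext hmu hphi
  have hac : AC nu (ext mu phi) := fun y hy =>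
    le_antisymm (by have := hK y; rw [hy, mul_zero] at this; exact this) (hnu.1 y)
  have hKL : 0 ≤ KL nu (ext mu phi) := hnu.KL_nonneg hext hac
  rw [sum_sets]
  have h1 : ∑ S : Finset ι, bw (ox τ t) (so S) * KL (push (rst (so S)) nu)
      (push (rst (so S)) (ext mu phi)) ≤ ε * KL nu (ext mu phi) + e1 := by
    have h2 := h (old nu) (isLaw_old hnu) fun x => by
      have h3 := hK (up true x)
      have h4 := hK (up false x)
      have h5 : mu x = ext mu phi (up true x) + ext mu phi (up false x) :=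
        (congrFun (old_ext mu phi) x).symm
      rw [h5, mul_add]
      exact add_le_add h3 h4
    have h3 := KL_old_le hnu.1 hext.1 hac
    rw [old_ext] at h3
    have h4 : ∀ S : Finset ι, bw (ox τ t) (so S) * KL (push (rst (so S)) nu)
        (push (rst (so S)) (ext mu phi)) =
        (1 - τ) * (bw t S * KL (push (rst S) (old nu)) (push (rst S) mu)) := by
      intro S
      rw [bw_so, KL_so, old_ext]
      ring
    rw [Finset.sum_congr rfl fun S _ => h4 S, ← Finset.mul_sum]
    have h5 : 0 ≤ ∑ S : Finset ι, bw t S * KL (push (rst S) (old nu)) (push (rst S) mu) := by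
      refine Finset.sum_nonneg fun S _ => mul_nonneg (bw_nonneg ht0 ht1 S) ?_
      refine ((isLaw_old hnu).push _).KL_nonneg (hmu.push _) (AC.push ?_ hmu.1 _)
      intro x hx
      have h6 : ∀ b, ext mu phi (up b x) = 0 := fun b => by rw [ext_up, hx, zero_mul]
      unfold old
      rw [hac _ (h6 true), hac _ (h6 false), add_zero]
    calc _ ≤ 1 * ∑ S : Finset ι, bw t S * KL (push (rst S) (old nu)) (push (rst S) mu) :=
          mul_le_mul_of_nonneg_right (by linarith) h5
      _ ≤ ε * KL (old nu) mu + e1 := by rw [one_mul]; exact h2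
      _ ≤ ε * KL nu (ext mu phi) + e1 := by
          have := mul_le_mul_of_nonneg_left h3 hε
          linarith
  have h2 : ∑ S : Finset ι, bw (ox τ t) (sn S) * KL (push (rst (sn S)) nu)
      (push (rst (sn S)) (ext mu phi)) ≤ τ * KL nu (ext mu phi) := by
    have h3 : ∀ S : Finset ι, bw (ox τ t) (sn S) * KL (push (rst (sn S)) nu)
        (push (rst (sn S)) (ext mu phi)) ≤ bw t S * (τ * KL nu (ext mu phi)) := by
      intro S
      rw [bw_sn, mul_comm τ, mul_assoc]
      refine mul_le_mul_of_nonneg_left ?_ (bw_nonneg ht0 ht1 S)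
      exact mul_le_mul_of_nonneg_left (KL_push_le _ hnu.1 hext.1 hac) hτ0
    refine (Finset.sum_le_sum fun S _ => h3 S).trans (le_of_eq ?_)
    rw [← Finset.sum_mul, sum_bw, one_mul]
  calc _ ≤ (ε * KL nu (ext mu phi) + e1) + τ * KL nu (ext mu phi) := add_le_add h1 h2
    _ = _ := by ring

theorem i1m_ext {lam : ∀ i, V i → ℝ} {M : ι → ℝ} {D0 : ℕ} {L : ℝ} (hR : Ref lam L)
    (hI : I1M lam M D0 mu) (hM : ∀ i, 1 ≤ M i) (hmu : ∀ x, 0 ≤ mu x)
    (hphi : ∀ x, |phi x| ≤ 1) : I1M (olam lam) (ox (3 / 2) M) D0 (ext mu phi) := by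
  intro A hA y
  by_cases hn : none ∈ A
  · obtain ⟨S, rfl⟩ : ∃ S, A = sn S := ⟨eraseNone A, by
      rw [sn, insertNone_eraseNone, Finset.insert_eq_of_mem hn]⟩
    rw [card_sn] at hA
    rw [marg_sn, prod_sn, lw_sn]
    simp only [ox_none, ox_some]
    have h1 := hI S (by omega) (dn y)
    have h2 := abs_le.1 (abs_marg_le (phi := phi) hmu hphi S (dn y))
    have h3 : sg (bt y) / 2 * marg (fun x => mu x * phi x) S (dn y) ≤ 1 / 2 * marg mu S (dn y) := by
      cases bt y
      · rw [sg_false]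
        linarith [h2.1]
      · rw [sg_true]
        linarith [h2.2]
    calc _ ≤ (marg mu S (dn y) + 1 / 2 * marg mu S (dn y)) / 2 := by linarith
      _ = 3 / 4 * marg mu S (dn y) := by ring
      _ ≤ 3 / 4 * ((∏ i ∈ S, M i) * lw lam S (dn y)) := mul_le_mul_of_nonneg_left h1 (by norm_num)
      _ = _ := by ring
  · obtain ⟨S, rfl⟩ : ∃ S, A = so S := ⟨eraseNone A, by
      rw [so, map_some_eraseNone, Finset.erase_eq_of_notMem hn]⟩
    rw [card_so] at hA
    rw [marg_so, prod_so, lw_so]
    simp only [ox_some]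
    exact hI S hA (dn y)

/-! ### the entropy of the tilt -/

/-- the value `true` of the new coordinate -/
def tr : OV V none := true

/-- the event `y none = true` -/
def evT (V : ι → Type) [∀ i, Fintype (V i)] [∀ i, DecidableEq (V i)] : Finset (∀ o, OV V o) :=
  ev (ι := Option ι) (V := OV V) none tr

theorem mem_evT {y : ∀ o, OV V o} : y ∈ evT V ↔ bt y = true := by
  unfold evT ev
  rw [Finset.mem_filter]
  exact ⟨fun h => h.2, fun h => ⟨Finset.mem_univ _, h⟩⟩

/-- conditional mean of `phi` given `x_S` -/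
noncomputable def cmn (mu phi : (∀ i, V i) → ℝ) (S : Finset ι) (x : ∀ i, V i) : ℝ :=
  marg (fun x => mu x * phi x) S x / marg mu S x

/-- variance of the conditional mean -/
noncomputable def vS (mu phi : (∀ i, V i) → ℝ) (S : Finset ι) : ℝ :=
  ∑ x, mu x * (cmn mu phi S x - ∑ z, mu z * phi z) ^ 2

theorem vS_nonneg (hmu : ∀ x, 0 ≤ mu x) (S : Finset ι) : 0 ≤ vS mu phi S :=
  Finset.sum_nonneg fun x _ => mul_nonneg (hmu x) (sq_nonneg _)

theorem sum_ev_true (nu : (∀ o, OV V o) → ℝ) :
    ∑ y ∈ evT V, nu y = ∑ x, nu (up true x) := by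
  have h1 : ∑ y ∈ evT V, nu y = ∑ y, if bt y = true then nu y else 0 := by
    rw [← Finset.sum_filter]
    refine Finset.sum_congr ?_ fun _ _ => rfl
    ext y
    rw [mem_evT, Finset.mem_filter]
    exact ⟨fun h => ⟨Finset.mem_univ _, h⟩, fun h => h.2⟩
  rw [h1, sum_ov]
  simp

theorem mass_tilt (hmu : IsLaw mu) : ∑ x, ext mu phi (up true x) =
    (1 + (∑ z, mu z * phi z) / 2) / 2 := by
  have h1 : ∀ x, ext mu phi (up true x) = (mu x + 1 / 2 * (mu x * phi x)) / 2 := by
    intro x
    rw [ext_up, sg_true]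
    ring
  rw [Finset.sum_congr rfl fun x _ => h1 x, ← Finset.sum_div, Finset.sum_add_distrib,
    ← Finset.mul_sum, hmu.2]
  ring

theorem abs_mean_le (hmu : IsLaw mu) (hphi : ∀ x, |phi x| ≤ 1) : |∑ z, mu z * phi z| ≤ 1 := by
  rw [← hmu.2]
  refine (Finset.abs_sum_le_sum_abs _ _).trans (Finset.sum_le_sum fun z _ => ?_)
  rw [abs_mul, abs_of_nonneg (hmu.1 z)]
  exact mul_le_of_le_one_right (hmu.1 z) (hphi z)

theorem old_res (hmu : IsLaw mu) (x : ∀ i, V i) :
    old (res (evT V) (ext mu phi)) x =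
      mu x * (1 + phi x / 2) / (1 + (∑ z, mu z * phi z) / 2) := by
  unfold old res
  rw [sum_ev_true, mass_tilt hmu]
  have h1 : (up true x : ∀ o, OV V o) ∈ evT V := mem_evT.2 rfl
  have h2 : (up false x : ∀ o, OV V o) ∉ evT V := fun h => Bool.false_ne_true (mem_evT.1 h)
  rw [if_pos h1, if_neg h2, add_zero, ext_up, sg_true]
  rw [one_mul, ← mul_div_assoc, div_div_div_cancel_right₀ (by norm_num)]

theorem marg_old_res (hmu : IsLaw mu) (S : Finset ι) (x : ∀ i, V i) :
    marg (old (res (evT V) (ext mu phi))) S x =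
      (marg mu S x + 1 / 2 * marg (fun x => mu x * phi x) S x) /
        (1 + (∑ z, mu z * phi z) / 2) := by
  unfold marg
  rw [Finset.mul_sum, ← Finset.sum_add_distrib, Finset.sum_div]
  refine Finset.sum_congr rfl fun z _ => ?_
  split_ifs
  · rw [old_res hmu]
    ring
  · ring

/-- chi-square bound on the restricted tilt -/
theorem KL_tilt (hmu : IsLaw mu) (hphi : ∀ x, |phi x| ≤ 1) (S : Finset ι) :
    KL (push (rst S) (old (res (evT V) (ext mu phi))))
      (push (rst S) mu) ≤ vS mu phi S := by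
  set nu := old (res (evT V) (ext mu phi)) with hnu
  set m := ∑ z, mu z * phi z with hm
  have hm1 := abs_le.1 (abs_mean_le hmu hphi)
  rw [← hm] at hm1
  have hmpos : 1 / 2 ≤ 1 + m / 2 := by linarith [hm1.1]
  have hext := isLaw_ext hmu hphi
  have hE : 0 < ∑ y ∈ evT V, ext mu phi y := by
    rw [sum_ev_true, mass_tilt hmu]
    linarith
  have hlaw : IsLaw nu := isLaw_old (isLaw_res hext.1 hE)
  have hac : AC nu mu := by
    intro x hx
    rw [hnu, old_res hmu, hx]
    simp
  have h1 := KL_le_chi (hlaw.push (rst S)).1 (hmu.push (rst S)).1 (hac.push hmu.1 (rst S))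
  rw [sum_push_one, sum_push_one, hlaw.2, hmu.2, sub_self, zero_add] at h1
  refine h1.trans ?_
  have h2 : ∀ u, (push (rst S) nu u - push (rst S) mu u) ^ 2 / push (rst S) mu u =
      push (rst S) mu u * (push (rst S) nu u / push (rst S) mu u - 1) ^ 2 := by
    intro u
    by_cases h : push (rst S) mu u = 0
    · rw [h]
      simp
    · field_simp
  rw [Finset.sum_congr rfl fun u _ => h2 u,
    sum_push (rst S) mu fun u => (push (rst S) nu u / push (rst S) mu u - 1) ^ 2]
  unfold vS
  refine Finset.sum_le_sum fun x _ => ?_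
  by_cases hx : mu x = 0
  · rw [hx, zero_mul, zero_mul]
  refine mul_le_mul_of_nonneg_left ?_ (hmu.1 x)
  rw [push_rst, push_rst, hnu, marg_old_res hmu]
  have hmx : 0 < marg mu S x :=
    lt_of_lt_of_le (lt_of_le_of_ne (hmu.1 x) (Ne.symm hx)) (le_marg hmu.1 S x)
  have h3 : (marg mu S x + 1 / 2 * marg (fun x => mu x * phi x) S x) / (1 + m / 2) / marg mu S x
      - 1 = (cmn mu phi S x - m) / (2 + m) := by
    unfold cmn
    have h4 : (2 + m) ≠ 0 := by linarith
    have h5 : (1 + m / 2) ≠ 0 := by linarith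
    field_simp
    ring
  rw [← hm, h3, div_pow]
  refine div_le_self (sq_nonneg _) ?_
  nlinarith [hm1.1]

/-- the entropy of testing for the extended law -/
theorem Iia_ext {t : ι → ℝ} {τ : ℝ} (ht0 : ∀ i, 0 ≤ t i) (ht1 : ∀ i, t i ≤ 1) (hτ0 : 0 ≤ τ)
    (hτ1 : τ ≤ 1) (hmu : IsLaw mu) (hphi : ∀ x, |phi x| ≤ 1) :
    Iia (ox τ t) (ext mu phi) (ι := Option ι) (V := OV V) none tr ≤
      (∑ S : Finset ι, bw t S * vS mu phi S) + τ * Real.log 4 := by
  have hext := isLaw_ext hmu hphi
  have hm1 := abs_le.1 (abs_mean_le hmu hphi)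
  have hE : 0 < ∑ y ∈ evT V, ext mu phi y := by
    rw [sum_ev_true, mass_tilt hmu]
    linarith [hm1.1]
  have hlaw := isLaw_res hext.1 hE
  unfold Iia
  change ∑ R : Finset (Option ι), bw (ox τ t) R * KL (push (rst R) (res (evT V) (ext mu phi)))
    (push (rst R) (ext mu phi)) ≤ _
  rw [sum_sets]
  refine add_le_add ?_ ?_
  · refine Finset.sum_le_sum fun S _ => ?_
    rw [bw_so, KL_so, old_ext, sub_mul, one_mul, sub_mul]
    have h1 := KL_tilt hmu hphi S
    have hb := bw_nonneg ht0 ht1 S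
    have h0 : 0 ≤ KL (push (rst S) (old (res (evT V)
        (ext mu phi)))) (push (rst S) mu) := by
      refine ((isLaw_old hlaw).push _).KL_nonneg (hmu.push _) (AC.push ?_ hmu.1 _)
      intro x hx
      rw [old_res hmu, hx]
      simp
    have h2 := mul_le_mul_of_nonneg_left h1 hb
    have h3 : 0 ≤ τ * bw t S * KL (push (rst S) (old (res (evT V)
        (ext mu phi)))) (push (rst S) mu) := mul_nonneg (mul_nonneg hτ0 hb) h0
    linarith
  · have h3 : ∀ S : Finset ι, bw (ox τ t) (sn S) * KL (push (rst (sn S))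
        (res (evT V) (ext mu phi)))
        (push (rst (sn S)) (ext mu phi)) ≤ bw t S * (τ * Real.log 4) := by
      intro S
      rw [bw_sn, mul_comm τ, mul_assoc]
      refine mul_le_mul_of_nonneg_left (mul_le_mul_of_nonneg_left ?_ hτ0) (bw_nonneg ht0 ht1 S)
      refine (KL_push_le _ hlaw.1 hext.1 (AC_res _ _)).trans ?_
      rw [KL_res hext.1 hE, sum_ev_true, mass_tilt hmu]
      have h4 : (1 : ℝ) / 4 ≤ (1 + (∑ z, mu z * phi z) / 2) / 2 := by linarith [hm1.1]
      have h5 := Real.log_le_log (by norm_num) h4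
      rw [one_div, Real.log_inv] at h5
      linarith
    refine (Finset.sum_le_sum fun S _ => h3 S).trans (le_of_eq ?_)
    rw [← Finset.sum_mul, sum_bw, one_mul]

end Vale.Agent.P042.H564
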