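import Vale.Agent.P042.H92.PDef
import Vale.Agent.P042.H858.MSub
import Vale.Agent.P042.H742.BOo
import Vale.Agent.P042.H564.OoAsm

/-!
# P042, F.INF3: the hypotheses of block [B] for the truncated laws with one super-modulus

`bhypO`: `PLaw` (index set `Option ι`, `S = univ.erase none`) gives `BHyp` for the marginal law on
the scales up to `ell j` and the super-modulus.
-/

set_option autoImplicit false
set_option linter.unusedSectionVars false

namespace Vale.Agent.P042.H564.Oo

open Finset Vale.Agent.P042.H92 Vale.Agent.P042.H461 Vale.Agent.P042.H742 Vale.Agent.P042.H365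
  Vale.Agent.P042.H416 Vale.Agent.P042.H858
open Vale.Agent.P042.H779 (marg m1)
open Vale.Agent.P042.H779.Ab.Ll (len)
open Vale.Agent.P042.H284 (eo eo_none eo_some)

section num

/-- numbers of block [B] -/
theorem numB {m n b c : ℝ} (hm : 1 ≤ m) (hn : 12 ≤ n) (hb : 1 ≤ b) (hbm : b ≤ m)
    (hc : c ≤ 2 * n + 1 + m) :
    b * (2 * m * n + c) + 3 ≤ (m * n) ^ 4 / 2 := by
  have hm0 : 0 < m := by linarith
  have hn0 : 0 < n := by linarith
  have hmn : n ≤ m * n := by nlinarith
  have h1 : b * (2 * m * n + c) ≤ m * (2 * m * n + (2 * n + 1 + m)) := by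
    have h2 : 0 ≤ 2 * m * n + (2 * n + 1 + m) := by positivity
    calc b * (2 * m * n + c) ≤ b * (2 * m * n + (2 * n + 1 + m)) := by gcongr
      _ ≤ _ := by gcongr
  have h3 : m * (2 * m * n + (2 * n + 1 + m)) + 3 ≤ 9 * (m ^ 2 * n) := by
    have e1 : m * n ≤ m ^ 2 * n := by nlinarith
    have e2 : m ≤ m ^ 2 * n := by nlinarith
    have e3 : m ^ 2 ≤ m ^ 2 * n := by nlinarith
    have e4 : 1 ≤ m ^ 2 * n := by nlinarith
    nlinarith
  have h4 : 9 * (m ^ 2 * n) ≤ (m * n) ^ 4 / 2 := by
    have e1 : (m * n) ^ 4 = (m ^ 2 * n) * (m ^ 2 * n ^ 3) := by ring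
    have e2 : 18 ≤ m ^ 2 * n ^ 3 := by
      have e3 : (12 : ℝ) ^ 3 ≤ n ^ 3 := by gcongr
      have e4 : 1 ≤ m ^ 2 := one_le_pow₀ hm
      nlinarith
    rw [e1]
    have e5 : 0 ≤ m ^ 2 * n := by positivity
    nlinarith
  linarith

/-- the error term -/
theorem numE {m n b : ℝ} (hm : 1 ≤ m) (hn : 12 ≤ n) (hb : 1 ≤ b) (hbm : b ≤ m) :
    b * (1 / (m * n) ^ 4 + 6 * ((m * n) ^ 4 / 2) * Real.exp (-(3 * ((m * n) ^ 4 / 2)))) ≤
      1 / (352 * (m * n) ^ 4) * ((m * n) ^ 4 / 2) := by
  have hm0 : 0 < m := by linarith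
  have hn0 : 0 < n := by linarith
  set X : ℝ := (m * n) ^ 4 with hX
  have hX0 : 0 < X := by positivity
  have h1 : 6 * (X / 2) * Real.exp (-(3 * (X / 2))) ≤ 8 / 3 / X := by
    set x : ℝ := 3 * (X / 2) with hx
    have hx0 : 0 < x := by positivity
    have h2 : x ^ 2 / 2 ≤ Real.exp x := by
      have := Real.quadratic_le_exp_of_nonneg hx0.le
      linarith
    rw [Real.exp_neg]
    have h3 : (Real.exp x)⁻¹ ≤ (x ^ 2 / 2)⁻¹ := inv_anti₀ (by positivity) h2
    have h4 : 6 * (X / 2) * (Real.exp x)⁻¹ ≤ 6 * (X / 2) * (x ^ 2 / 2)⁻¹ := by gcongr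
    refine h4.trans (le_of_eq ?_)
    rw [hx]
    field_simp
    norm_num
  have h5 : b * (1 / X + 6 * (X / 2) * Real.exp (-(3 * (X / 2)))) ≤ m * (4 / X) := by
    have h6 : 1 / X + 6 * (X / 2) * Real.exp (-(3 * (X / 2))) ≤ 4 / X := by
      have h7 : 1 / X + 8 / 3 / X = (11 / 3) / X := by field_simp; norm_num
      have h8 : (11 / 3 : ℝ) / X ≤ 4 / X := by gcongr; norm_num
      linarith
    have h9 : 0 ≤ 4 / X := by positivity
    calc b * (1 / X + 6 * (X / 2) * Real.exp (-(3 * (X / 2)))) ≤ b * (4 / X) := by gcongr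
      _ ≤ m * (4 / X) := by gcongr
  have h10 : 1 / (352 * X) * (X / 2) = 1 / 704 := by
    field_simp
    norm_num
  rw [h10]
  refine h5.trans ?_
  have h11 : m * (4 / X) = 4 * m / X := by ring
  rw [h11, div_le_div_iff₀ hX0 (by norm_num)]
  have h12 : X = m * (m ^ 3 * n ^ 4) := by rw [hX]; ring
  have h13 : (12 : ℝ) ^ 4 ≤ n ^ 4 := by gcongr
  have h14 : 1 ≤ m ^ 3 := one_le_pow₀ hm
  have h15 : 4 * 704 ≤ m ^ 3 * n ^ 4 := by nlinarith
  rw [h12]
  nlinarith

end num

section law

variable {ι : Type*} [Fintype ι] [DecidableEq ι] {V : Option ι → Type*} [∀ i, Fintype (V i)]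
  [∀ i, DecidableEq (V i)] {J : Type*} [Fintype J] [DecidableEq J]
  {Q : Prm} {K0 : ℕ} {ℓ es : Option ι → ℝ} {sc : ι → J} {sn : J → ℕ} {ell : J → ℝ}
  {lam u : ∀ i, V i → ℝ} {mu : (∀ i, V i) → ℝ}

/-- the rates with one super-modulus -/
noncomputable def tO (Q : Prm) (es : Option ι → ℝ) (m n : ℕ) (i : Option ι) : ℝ :=
  Function.update (tF Q (univ.erase none) es m n) none (1 / (704 * LF m n)) i

theorem tO_none (m n : ℕ) : tO Q es m n none = 1 / (704 * LF m n) := by
  unfold tO
  rw [Function.update_self]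

theorem tO_some (m n : ℕ) (i : ι) (h : es (some i) ≤ n * Real.log 2) :
    tO Q es m n (some i) =
      H365.rate ((1 - Q.G) * Q.p) (es (some i)) / ((m : ℝ) * n) ^ Q.CK := by
  unfold tO tF
  rw [Function.update_of_ne (by simp), if_pos ⟨by simp, h⟩]

theorem LF_pos {m n : ℕ} (hm : 1 ≤ m) (hn : 1 ≤ n) : 1 ≤ LF m n := by
  unfold LF
  have h1 : (1 : ℝ) ≤ m := by exact_mod_cast hm
  have h2 : (1 : ℝ) ≤ n := by exact_mod_cast hn
  exact one_le_pow₀ (by nlinarith)

theorem tF_le_one (S : Finset (Option ι)) {m n : ℕ} (hm : 1 ≤ m) (hn : 1 ≤ n) (i : Option ι) :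
    tF Q S es m n i ≤ 1 := by
  unfold tF
  split_ifs
  · have h1 : (1 : ℝ) ≤ m := by exact_mod_cast hm
    have h2 : (1 : ℝ) ≤ n := by exact_mod_cast hn
    have h3 : (1 : ℝ) ≤ ((m : ℝ) * n) ^ Q.CK := one_le_pow₀ (by nlinarith)
    exact (div_le_self (rate_pos _ _).le h3).trans (rate_le_one _ _)
  · norm_num

theorem tF_nonneg (S : Finset (Option ι)) (m n : ℕ) (i : Option ι) : 0 ≤ tF Q S es m n i := by
  unfold tF
  split_ifs
  · have := (rate_pos ((1 - Q.G) * Q.p) (es i)).le
    positivity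
  · exact le_rfl

theorem tO_nonneg {m n : ℕ} (hm : 1 ≤ m) (hn : 1 ≤ n) (i : Option ι) : 0 ≤ tO Q es m n i := by
  unfold tO
  by_cases h : i = none
  · subst h
    rw [Function.update_self]
    have := LF_pos hm hn
    positivity
  · rw [Function.update_of_ne h]
    exact tF_nonneg _ _ _ _

theorem tO_le_one {m n : ℕ} (hm : 1 ≤ m) (hn : 1 ≤ n) (i : Option ι) : tO Q es m n i ≤ 1 := by
  unfold tO
  by_cases h : i = none
  · subst h
    rw [Function.update_self]
    have := LF_pos hm hn
    exact div_le_one_of_le₀ (by linarith) (by positivity)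
  · rw [Function.update_of_ne h]
    exact tF_le_one _ hm hn _

/-- `MEIK` with a small rate at the super-modulus -/
theorem meikO (h : PLaw Q (univ.erase none) ℓ es lam u mu) {m n : ℕ} (hm : 1 ≤ m)
    (hm2 : (m : ℝ) ≤ Real.exp (2 * Q.d1 * Q.p)) (hn : 1 ≤ n)
    (hn2 : n * Real.log 2 ≤ Q.C1 * Q.p + 1) :
    MEIK (tO Q es m n) (1 / (352 * LF m n)) (1 / LF m n) (Real.exp (6 * (LF m n / 2))) mu := by
  have hlaw : IsLaw mu := ⟨h.ref.prob.nonneg, h.ref.prob.sum_eq⟩
  have hLF := LF_pos hm hn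
  have h0 : tF Q (univ.erase none) es m n none = 0 := by
    unfold tF
    rw [if_neg (by simp)]
  have h1 := h.mei m n hm hm2 hn hn2
  have h2 : Function.update (tO Q es m n) none 0 = tF Q (univ.erase none) es m n := by
    funext i
    by_cases hi : i = none
    · subst hi
      rw [Function.update_self, h0]
    · rw [Function.update_of_ne hi]
      unfold tO
      rw [Function.update_of_ne hi]
  rw [← h2] at h1
  have h3 := MEIK.upd hlaw (tO_nonneg hm hn) (tO_le_one hm hn) h1
  refine MEIK_mono h3 hlaw (tO_nonneg hm hn) (fun i => le_rfl) (tO_le_one hm hn) ?_ le_rfl ?_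
  · rw [tO_none]
    apply le_of_eq
    have : LF m n ≠ 0 := by linarith
    field_simp
    norm_num
  · apply Real.exp_le_exp.2
    linarith

/-- the densities of the marginals -/
noncomputable def MO (Q : Prm) (ℓ : Option ι → ℝ) (i : Option ι) : ℝ :=
  Real.exp (Q.a0 + Q.γ * ℓ i)

theorem i1mO (h : PLaw Q (univ.erase none) ℓ es lam u mu) (ha0 : 0 ≤ Q.a0) {D0 : ℕ}
    (hlen : ∀ A : Finset (Option ι), A.card ≤ D0 → len ℓ A ≤ Q.Λ) :
    H678.I1M lam (MO Q ℓ) D0 mu := by
  intro A hA x
  rcases A.eq_empty_or_nonempty with rfl | hne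
  · have h1 : marg mu ∅ x = 1 := by
      unfold marg
      simpa using h.ref.prob.sum_eq
    rw [h1]
    simp [lw]
  · refine (h.sup A (hlen A hA) x).trans ?_
    refine mul_le_mul_of_nonneg_right ?_ (Finset.prod_nonneg fun i _ => h.ref.w_nonneg i _)
    unfold costP MO
    rw [← Real.exp_sum]
    apply Real.exp_le_exp.2
    rw [Finset.sum_add_distrib, Finset.sum_const, nsmul_eq_mul, ← Finset.mul_sum]
    have h1 : (1 : ℝ) ≤ A.card := by exact_mod_cast hne.card_pos
    have h2 : Q.a0 ≤ A.card * Q.a0 := by nlinarith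
    unfold len
    linarith

/-- the number of sites of the truncated law -/
theorem cardO (hS : Scl Q K0 univ (fun i => ℓ (some i)) (fun i => es (some i)) sc sn ell) (j : J)
    [DecidablePred (po sc ell j)] :
    (Fintype.card {i // po sc ell j i} : ℝ) ≤ 1 + (sn j + 1) * Real.exp (sn j * Real.log 2) := by
  classical
  have hl2 : 0 < Real.log 2 := Real.log_pos (by norm_num)
  have h1 : ((univ.filter fun i : ι => ell (sc i) ≤ ell j).card : ℝ) ≤
      (sn j + 1) * Real.exp (sn j * Real.log 2) := by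
    have h2 : (univ.filter fun i : ι => ell (sc i) ≤ ell j) =
        (univ.filter fun l : J => ell l ≤ ell j).biUnion fun l => univ.filter fun i => sc i = l := by
      ext i
      simp
    have h3 : ((univ.filter fun l : J => ell l ≤ ell j).card : ℝ) ≤ sn j + 1 := by
      have h4 : (univ.filter fun l : J => ell l ≤ ell j).card ≤ (range (sn j + 1)).card := by
        refine Finset.card_le_card_of_injOn sn (fun l hl => ?_) (fun a _ b _ hab => hS.inj hab)
        have h5 := (Finset.mem_filter.1 (Finset.mem_coe.1 hl)).2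
        rw [hS.ell1, hS.ell1] at h5
        have h6 : (sn l : ℝ) ≤ sn j := le_of_mul_le_mul_right h5 hl2
        have h7 : sn l ≤ sn j := by exact_mod_cast h6
        simp only [Finset.coe_range, Set.mem_Iio]
        omega
      rw [Finset.card_range] at h4
      exact_mod_cast h4
    have h8 : ∀ l ∈ univ.filter (fun l : J => ell l ≤ ell j),
        (((univ : Finset ι).filter fun i => sc i = l).card : ℝ) ≤
          Real.exp (sn j * Real.log 2) := by
      intro l hl
      have h9 := (Finset.mem_filter.1 hl).2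
      have h10 := hS.card (ell l)
      have h11 : ((univ : Finset ι).filter fun i => sc i = l) ⊆
          (univ : Finset ι).filter fun i => es (some i) = ell l := by
        intro i hi
        have h12 := (Finset.mem_filter.1 hi).2
        refine Finset.mem_filter.2 ⟨Finset.mem_univ _, ?_⟩
        have h13 : es (some i) = ell (sc i) := hS.es1 i (Finset.mem_univ _)
        rw [h13, h12]
      have h14 : (((univ : Finset ι).filter fun i => sc i = l).card : ℝ) ≤
          ((univ : Finset ι).filter fun i => es (some i) = ell l).card := by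
        exact_mod_cast Finset.card_le_card h11
      refine h14.trans (h10.trans (Real.exp_le_exp.2 ?_))
      rw [hS.ell1 j] at h9
      exact h9
    rw [h2]
    have h15 : ((((univ.filter fun l : J => ell l ≤ ell j).biUnion fun l =>
        (univ : Finset ι).filter fun i => sc i = l).card : ℕ) : ℝ) ≤
        ∑ l ∈ univ.filter (fun l : J => ell l ≤ ell j),
          (((univ : Finset ι).filter fun i => sc i = l).card : ℝ) := by
      exact_mod_cast Finset.card_biUnion_le
    refine h15.trans ((Finset.sum_le_card_nsmul _ _ _ h8).trans ?_)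
    rw [nsmul_eq_mul]
    exact mul_le_mul_of_nonneg_right h3 (Real.exp_pos _).le
  have h20 : Fintype.card {i // po sc ell j i} ≤
      1 + (univ.filter fun i : ι => ell (sc i) ≤ ell j).card := by
    rw [Fintype.card_subtype]
    have h21 : (univ.filter fun i : Option ι => po sc ell j i) ⊆
        insert none ((univ.filter fun i : ι => ell (sc i) ≤ ell j).map
          Function.Embedding.some) := by
      intro i hi
      cases i with
      | none => exact Finset.mem_insert_self _ _
      | some i =>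
        refine Finset.mem_insert_of_mem (Finset.mem_map.2 ⟨i, ?_, rfl⟩)
        exact Finset.mem_filter.2 ⟨Finset.mem_univ _, (Finset.mem_filter.1 hi).2⟩
    refine (Finset.card_le_card h21).trans ((Finset.card_insert_le _ _).trans ?_)
    rw [Finset.card_map]
    omega
  have h22 : (Fintype.card {i // po sc ell j i} : ℝ) ≤
      1 + ((univ.filter fun i : ι => ell (sc i) ≤ ell j).card : ℝ) := by
    exact_mod_cast h20
  linarith

theorem log_cardO (hS : Scl Q K0 univ (fun i => ℓ (some i)) (fun i => es (some i)) sc sn ell)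
    (j : J) [DecidablePred (po sc ell j)] {m b : ℕ} (hbm : b + 1 ≤ m) :
    Real.log (Fintype.card {i // po sc ell j i} * ((b + 1 : ℕ) : ℝ)) ≤ 2 * sn j + 1 + m := by
  have hc := cardO hS j
  set n : ℝ := (sn j : ℝ) with hn
  have hn0 : 0 ≤ n := Nat.cast_nonneg _
  have hl2 : Real.log 2 ≤ 1 := by have := Real.log_two_lt_d9; linarith
  have hl20 : 0 < Real.log 2 := Real.log_pos (by norm_num)
  have h1 : 1 + (n + 1) * Real.exp (n * Real.log 2) ≤ Real.exp (2 * n + 1) := by
    have e1 : n + 1 ≤ Real.exp n := Real.add_one_le_exp n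
    have e2 : Real.exp (n * Real.log 2) ≤ Real.exp n := Real.exp_le_exp.2 (by nlinarith)
    have e3 : (n + 1) * Real.exp (n * Real.log 2) ≤ Real.exp n * Real.exp n := by gcongr
    have e4 : Real.exp n * Real.exp n = Real.exp (2 * n) := by rw [← Real.exp_add]; congr 1; ring
    have e5 : 1 ≤ Real.exp (2 * n) := Real.one_le_exp (by positivity)
    have e6 : Real.exp (2 * n + 1) = Real.exp (2 * n) * Real.exp 1 := by rw [Real.exp_add]
    have e7 : (2 : ℝ) ≤ Real.exp 1 := by have := Real.exp_one_gt_d9; linarith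
    rw [e6]
    nlinarith
  have hpos : (0 : ℝ) < Fintype.card {i // po sc ell j i} := by
    have : Nonempty {i // po sc ell j i} := by
      refine ⟨⟨none, ?_⟩⟩
      show eo ell (Option.map sc none) ≤ ell j
      rw [Option.map_none, eo_none, hS.ell1]
      positivity
    exact_mod_cast Fintype.card_pos
  have hb0 : (0 : ℝ) < ((b + 1 : ℕ) : ℝ) := by positivity
  have h2 : (Fintype.card {i // po sc ell j i} : ℝ) * ((b + 1 : ℕ) : ℝ) ≤
      Real.exp (2 * n + 1) * Real.exp m := by
    have e1 : ((b + 1 : ℕ) : ℝ) ≤ Real.exp m := by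
      have e2 : ((b + 1 : ℕ) : ℝ) ≤ m := by exact_mod_cast hbm
      have e3 := Real.add_one_le_exp (m : ℝ)
      linarith
    exact mul_le_mul (hc.trans h1) e1 hb0.le (Real.exp_pos _).le
  rw [← Real.exp_add] at h2
  have h3 := Real.log_le_log (by positivity) h2
  rwa [Real.log_exp] at h3

theorem po_some (j : J) (i : ι) : po sc ell j (some i) ↔ ell (sc i) ≤ ell j := Iff.rfl

/-- `ℓ i` is the logarithm of the number of classes -/
theorem ell_card (h : PLaw Q (univ.erase none) ℓ es lam u mu) (i : Option ι) :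
    ℓ i = Real.log (Fintype.card (V i)) := by
  have h1 := h.usum i
  rw [Finset.sum_congr rfl fun a _ => h.u1 i a, Finset.sum_const, nsmul_eq_mul,
    Finset.card_univ] at h1
  have h2 : (Fintype.card (V i) : ℝ) = Real.exp (ℓ i) := by
    rw [Real.exp_neg] at h1
    have h3 := Real.exp_pos (ℓ i)
    field_simp at h1
    exact h1
  rw [h2, Real.log_exp]

theorem ell_nonneg (h : PLaw Q (univ.erase none) ℓ es lam u mu) (i : Option ι) : 0 ≤ ℓ i := by
  rw [ell_card h i]
  exact Real.log_natCast_nonneg _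

/-- the reference of the truncated law -/
theorem refO (hS : Scl Q K0 univ (fun i => ℓ (some i)) (fun i => es (some i)) sc sn ell)
    {u' : ∀ i, V i → ℝ} (h0 : ∀ i a, 0 ≤ lam i a) (h1 : ∀ i, ∑ a, lam i a = 1)
    (hlo : ∀ i a, lam i a = 0 ∨ Real.exp (-(Q.γ * ℓ i)) * u' i a ≤ lam i a)
    (hout : lam none = u' none) (hu1 : ∀ i a, u' i a = Real.exp (-ℓ i)) (hℓ : ∀ i, 0 ≤ ℓ i)
    (hγ : Q.γ ≤ 1) {m : ℕ} (hm : 1 ≤ m) (hℓm : ℓ none ≤ m) (j : J) (hn : 1 ≤ sn j)
    [DecidablePred (po sc ell j)] :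
    H742.Ref (V := fun i : {i // po sc ell j i} => V i) (lsub (po sc ell j) lam)
      (2 * m * sn j) := by
  have hm1 : (1 : ℝ) ≤ m := by exact_mod_cast hm
  have hn1 : (1 : ℝ) ≤ sn j := by exact_mod_cast hn
  refine ⟨fun i a => h0 _ a, fun i => h1 _, fun i a => ?_⟩
  obtain ⟨i, hi⟩ := i
  cases i with
  | none =>
    right
    show Real.exp (-(2 * m * sn j)) ≤ lam none a
    rw [hout, hu1]
    apply Real.exp_le_exp.2
    nlinarith
  | some i =>
    rcases hlo (some i) a with h | h
    · left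
      exact h
    · right
      refine le_trans ?_ h
      show Real.exp (-(2 * m * sn j)) ≤ _
      rw [hu1, ← Real.exp_add]
      apply Real.exp_le_exp.2
      have h2 : ℓ (some i) ≤ es (some i) := hS.up i (Finset.mem_univ _)
      have h3 : es (some i) = ell (sc i) := hS.es1 i (Finset.mem_univ _)
      have h4 : ell (sc i) ≤ ell j := hi
      rw [hS.ell1 j] at h4
      have h5 : (sn j : ℝ) * Real.log 2 ≤ sn j := by
        have := Real.log_two_lt_d9
        nlinarith
      have h6 : ℓ (some i) ≤ sn j := by linarith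
      have h7 := hℓ (some i)
      have h8 : Q.γ * ℓ (some i) ≤ 1 * ℓ (some i) := mul_le_mul_of_nonneg_right hγ h7
      have h9 : (sn j : ℝ) ≤ m * sn j := by nlinarith
      linarith

/-- **block [B] for the truncated law with one super-modulus** -/
theorem bhypO (hS : Scl Q K0 univ (fun i => ℓ (some i)) (fun i => es (some i)) sc sn ell)
    (h : PLaw Q (univ.erase none) ℓ es lam u mu) (ha0 : 0 ≤ Q.a0) (hγ0 : 0 ≤ Q.γ) (hγ : Q.γ ≤ 1)
    (hK0 : 12 ≤ K0) {b m : ℕ} (hb : 1 ≤ b) (hbm : b + 1 ≤ m) (hℓm : ℓ none ≤ m)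
    (hm2 : (m : ℝ) ≤ Real.exp (2 * Q.d1 * Q.p))
    (hlen : ∀ A : Finset (Option ι), A.card ≤ b + 1 → len ℓ A ≤ Q.Λ) (j : J)
    [DecidablePred (po sc ell j)] :
    BHyp (V := fun i : {i // po sc ell j i} => V i) (lsub (po sc ell j) lam)
      (msub (po sc ell j) mu) (fun i => tO Q es m (sn j) i) (fun i => MO Q ℓ i)
      (2 * m * sn j) (LF m (sn j) / 2) (1 / (352 * LF m (sn j))) (LF m (sn j) / 2)
      (Real.exp (-(3 * (LF m (sn j) / 2)))) (b + 1) := by
  have hlaw : IsLaw mu := ⟨h.ref.prob.nonneg, h.ref.prob.sum_eq⟩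
  have hn12 : 12 ≤ sn j := hK0.trans (hS.K0 j)
  have hn : 1 ≤ sn j := by omega
  have hm : 1 ≤ m := by omega
  have hn12' : (12 : ℝ) ≤ sn j := by exact_mod_cast hn12
  have hm1 : (1 : ℝ) ≤ m := by exact_mod_cast hm
  have hb1 : (1 : ℝ) ≤ ((b + 1 : ℕ) : ℝ) := by exact_mod_cast (by omega : 1 ≤ b + 1)
  have hbm' : ((b + 1 : ℕ) : ℝ) ≤ m := by exact_mod_cast hbm
  have htop : (sn j : ℝ) * Real.log 2 ≤ Q.C1 * Q.p + 1 := by
    have := hS.top j
    rwa [hS.ell1 j] at this
  have hLF := LF_pos hm hn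
  have hmei := meikO h hm hm2 hn htop
  have hpos : ∀ i : {i // po sc ell j i}, 0 < tO Q es m (sn j) i := by
    rintro ⟨i, hi⟩
    cases i with
    | none =>
      show 0 < tO Q es m (sn j) none
      rw [tO_none]
      positivity
    | some i =>
      show 0 < tO Q es m (sn j) (some i)
      have h3 : es (some i) = ell (sc i) := hS.es1 i (Finset.mem_univ _)
      have h4 : ell (sc i) ≤ ell j := hi
      rw [tO_some _ _ _ (by rw [h3, ← hS.ell1 j]; exact h4)]
      have h5 := rate_pos ((1 - Q.G) * Q.p) (es (some i))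
      have h6 : (0 : ℝ) < m := by linarith
      have h7 : (0 : ℝ) < sn j := by linarith
      positivity
  refine bhyp_of_meik (msub_isLaw hlaw)
    (refO hS h.ref.w_nonneg h.ref.w_sum h.lo (h.out none (by simp)) h.u1 (ell_nonneg h) hγ hm hℓm
      j hn)
    (I1M_sub _ (i1mO h ha0 hlen) hlaw) (fun i => ?_) hpos (fun i => tO_le_one hm hn _)
    (by positivity) (by omega) ?_
    (MEIK_sub _ hmei hlaw (fun i => (hpos i).le) (fun i => le_rfl) (tO_nonneg hm hn)
      (tO_le_one hm hn)) (by positivity) (by positivity) ?_ ?_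
  · show 1 ≤ Real.exp (Q.a0 + Q.γ * ℓ i)
    have := ell_nonneg h i
    exact Real.one_le_exp (by positivity)
  · have h1 := log_cardO hS j (m := m) (b := b) hbm
    have h2 := numB hm1 hn12' hb1 hbm' h1
    unfold LF
    exact h2
  · apply le_of_eq
    have : LF m (sn j) ≠ 0 := by linarith
    field_simp
    norm_num
  · have h1 := numE hm1 hn12' hb1 hbm'
    unfold LF
    exact h1

end law

end Vale.Agent.P042.H564.Oo
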