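import Vale.Agent.P042.H92.PLocal
import Vale.Agent.P042.H564.OoAsm

/-!
# P042, F.INF3: the rows of one truncated law with one super-modulus, as a statement over `Regime`

The index set is `Option ι`: `ι` = the ordinary sites, `none` = the super-modulus.
-/

set_option autoImplicit false

namespace Vale.Agent.P042.H564.Oo

open Finset Vale.Agent.P042.H284 Vale.Agent.P042.H384 Vale.Agent.P042.H92 Vale.Agent.P042.H461
  Vale.Agent.P042.H742

/-- **Rows with one super-modulus** (input of `boof_of`). -/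
def RwOof : Prop := ∀ C1 : ℝ, 4 ≤ C1 → Regime (fun c1 _ g A K0 Q =>
  ∀ (J : Type) [Fintype J] [DecidableEq J] (ι : Type) [Fintype ι] [DecidableEq ι]
    (V : Option ι → Type) [∀ i, Fintype (V i)] [∀ i, DecidableEq (V i)] (ℓ es : Option ι → ℝ)
    (sc : ι → J) (sn : J → ℕ) (ell : J → ℝ) (lo : Option ι → Prop) (lam lam2 u : ∀ i, V i → ℝ)
    (rho e : Option ι → ℝ) (mu : (∀ i, V i) → ℝ),
    Scl Q K0 univ (fun i => ℓ (some i)) (fun i => es (some i)) sc sn ell →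
    PLaw Q (univ.erase none) ℓ es lam u mu →
    (∀ i, lo i → lam2 i = lam i) → (∀ i, ¬ lo i → lam2 i = u i) → ¬ lo none →
    Q.p ≤ ℓ none → ℓ none ≤ Real.exp (2 * Q.d1 * Q.p) → (∀ i, 0 ≤ rho i) → (∀ i, 0 ≤ e i) →
    (∀ i, rho (some i) ≤ Real.exp (-(1 / 2) * es (some i) + Q.γ * es (some i))) →
    (∀ i, e (some i) ≤ Real.exp (-es (some i) + Q.γ * es (some i))) →
    rho none ≤ Real.exp (-(20 * ℓ none)) → e none ≤ Real.exp (-(20 * ℓ none)) →
    ∀ b : ℕ, 2 ≤ b → (b : ℝ) ≤ Real.exp (Q.d1 * Q.p) → ∀ (j : J) (σ : ℝ), 0 < σ →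
      σ ≤ (((1 + ℓ none) * (b * ell j)) ^ A)⁻¹ →
      ∀ [DecidablePred (po sc ell j)], RwOK lam2 rho e mu sc ell g c1 b j σ) C1

end Vale.Agent.P042.H564.Oo
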