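import Vale.Agent.P042.H564.BoO
import Vale.Agent.P042.H276.RwoP
import Vale.Agent.P042.H587.PHAll

/-!
# P042, F.INF3: `BOof` from `BTSof`
-/

set_option autoImplicit false

namespace Vale.Agent.P042.H564.Oo

open Finset Vale.Agent.P042.H92

/-- the rows with one super-modulus (helper276) -/
theorem rwOof : RwOof := by
  intro C1 hC1
  obtain ⟨k0, hk0, H⟩ := H276.rwo_one H587.ph_plaw hC1
  have hε : 0 < H276.epx C1 := by
    unfold H276.epx
    positivity
  refine ⟨1, fun CK hCK => ⟨H276.epx C1 / 8, by positivity, fun G hG0 hG => ?_⟩⟩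
  refine ⟨H276.epx C1 / 16, H276.epx C1 / 8, CK + 9, by positivity, by linarith,
    min (H276.epx C1 / 16) 1, lt_min (by positivity) one_pos, k0, hk0, ?_⟩
  intro g kap γ d1 hg0 hg hkap hkg hγ0 hγ hd0 hd a0 ha0
  have hg1 : g ≤ H276.epx C1 / 16 := hg.trans (min_le_left _ _)
  have hg2 : g ≤ 1 := hg.trans (min_le_right _ _)
  have hγ1 : γ ≤ k0 := by
    refine hγ.trans ?_
    exact mul_le_of_le_one_right hk0.le (by linarith)
  obtain ⟨K1, H1⟩ := H CK hCK G hG0 hG (H276.epx C1 / 16) g (by linarith) γ d1 hγ0 hγ1 hd0 hd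
    a0 ha0
  refine ⟨K1, fun θ c0 cD hθ hc0 hcD hcDk => ?_⟩
  obtain ⟨p0, H2⟩ := H1 K1 le_rfl θ c0 cD hθ hc0 hcD hcDk
  refine ⟨max p0 0, fun p hp => ?_⟩
  intro J _ _ ι _ _ V _ _ ℓ es sc sn ell lo lam lam2 u rho e mu hS hP hlow hhigh hnlo hpl hlu
    hr0 he0 hr he hrn hen b hb hb' j σ hσ hσ' _
  have hp0 : 0 ≤ p := (le_max_right _ _).trans hp
  have hl0 : 0 ≤ ℓ none := hp0.trans hpl
  have h20 : Real.exp (-(20 * ℓ none)) ≤ Real.exp (-ℓ none) :=
    Real.exp_le_exp.2 (by linarith)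
  exact H2 p ((le_max_left _ _).trans hp) kap J ι V ℓ es sc sn ell lam lam2 u rho e mu hS hP
    (fun i => by
      by_cases h : lo i
      · exact Or.inl (hlow i h)
      · exact Or.inr (hhigh i h)) hr0 he0 hr he hl0 hlu (hrn.trans h20) (hen.trans h20) b
    (by omega) (by simp only at hb'; linarith) j σ hσ hσ'

/-- **`BOof` from `BTSof`.** -/
theorem boof_of (hB : BTSof) : BOof := boof1_of hB rwOof

end Vale.Agent.P042.H564.Oo
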