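import Vale.Agent.P042.H92.PLocal
import Vale.Agent.P042.H564.OoAsm

/-!
# P042, F.INF3: bridges for the statement about one super-modulus
-/

set_option autoImplicit false
set_option linter.unusedSectionVars false

namespace Vale.Agent.P042.H564.Oo

open Finset Vale.Agent.P042.H232 Vale.Agent.P042.H461 Vale.Agent.P042.H742 Vale.Agent.P042.H365
  Vale.Agent.P042.H416
open Vale.Agent.P042.H779 (m1)
open Vale.Agent.P042.H284 (BV Lt pr pr_nil pr_cons pr_nonneg BdT sum_Lt_nil sum_Lt_cons VJ BT BTS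
  eo rs FK OB_scale)

section bdt

variable {Ω Λ : Type*}

theorem sum_Lt_le {X X' : Λ → Finset Ω} (h : ∀ l, X' l ⊆ X l) :
    ∀ (τ : List Λ) (F : List Ω → ℝ), (∀ ω, 0 ≤ F ω) → ∑ ω ∈ Lt X' τ, F ω ≤ ∑ ω ∈ Lt X τ, F ω
  | [], F, _ => by rw [sum_Lt_nil, sum_Lt_nil]
  | l :: τ, F, hF => by
    rw [sum_Lt_cons, sum_Lt_cons]
    refine (Finset.sum_le_sum fun a _ => sum_Lt_le h τ _ fun ω => hF _).trans ?_
    exact Finset.sum_le_sum_of_subset_of_nonneg (h l) fun a _ _ =>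
      Finset.sum_nonneg fun ω _ => hF _

theorem BV_subX {w : ℝ} {X Y X' Y' : Finset Ω} {ζ : Ω → Ω → ℝ} (h : BV w X Y ζ) (hX : X' ⊆ X)
    (hY : Y' ⊆ Y) : BV w X' Y' ζ := by
  classical
  intro u v
  have h1 := h (fun p => if p ∈ X' then u p else 0) (fun q => if q ∈ Y' then v q else 0)
  have e1 : ∀ (Z Z' : Finset Ω) (f : Ω → ℝ), Z' ⊆ Z →
      ∑ p ∈ Z, (if p ∈ Z' then f p else 0) = ∑ p ∈ Z', f p := fun Z Z' f hZ => by
    rw [← Finset.sum_filter, Finset.filter_mem_eq_inter, Finset.inter_eq_right.2 hZ]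
  have e2 : ∀ (Z Z' : Finset Ω) (f : Ω → ℝ), Z' ⊆ Z →
      ∑ p ∈ Z, (if p ∈ Z' then f p else 0) ^ 2 = ∑ p ∈ Z', f p ^ 2 := fun Z Z' f hZ => by
    rw [← e1 Z Z' _ hZ]
    exact Finset.sum_congr rfl fun p _ => by split_ifs <;> simp
  rw [e2 X X' u hX, e2 Y Y' v hY] at h1
  have e3 : ∑ p ∈ X, ∑ q ∈ Y, (if p ∈ X' then u p else 0) * ζ p q * (if q ∈ Y' then v q else 0) =
      ∑ p ∈ X', ∑ q ∈ Y', u p * ζ p q * v q := by
    rw [← e1 X X' _ hX]
    refine Finset.sum_congr rfl fun p _ => ?_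
    split_ifs with hp
    · rw [← e1 Y Y' _ hY]
      exact Finset.sum_congr rfl fun q _ => by split_ifs <;> simp
    · simp
  rw [e3] at h1
  exact h1

theorem bdt_subX {X X' : Λ → Finset Ω} {b : ℕ} {y κ : Λ → ℝ} {N : Λ → Λ → ℝ}
    {T : Multiset Ω → ℝ} (h : BdT X b y κ N T) (hX : ∀ l, X' l ⊆ X l) : BdT X' b y κ N T :=
  ⟨fun l => (sum_Lt_le hX _ _ fun _ => sq_nonneg _).trans (h.one l),
    fun l m => (sum_Lt_le hX _ _ fun _ => sq_nonneg _).trans (h.two l m),
    fun l m => BV_subX (h.op l m) (hX l) (hX m),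
    fun τ h3 hb => (sum_Lt_le hX _ _ fun _ => sq_nonneg _).trans (h.hs τ h3 hb)⟩

theorem pr_mono {y y' : Λ → ℝ} (h0 : ∀ l, 0 ≤ y l) (h : ∀ l, y l ≤ y' l) :
    ∀ τ : List Λ, pr y τ ≤ pr y' τ
  | [] => by rw [pr_nil, pr_nil]
  | l :: τ => by
    rw [pr_cons, pr_cons]
    exact mul_le_mul (h l) (pr_mono h0 h τ) (pr_nonneg h0 τ) ((h0 l).trans (h l))

theorem bdt_mono_kap {X : Λ → Finset Ω} {b : ℕ} {y κ κ' : Λ → ℝ} {N : Λ → Λ → ℝ}
    {T : Multiset Ω → ℝ} (h : BdT X b y κ N T) (hy : ∀ l, 0 < y l) (hκ0 : ∀ l, 0 ≤ κ l)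
    (hκ : ∀ l, κ l ≤ κ' l) : BdT X b y κ' N T := by
  refine ⟨h.one, h.two, fun l m u v => (h.op l m u v).trans ?_, fun τ h3 hb =>
    (h.hs τ h3 hb).trans ?_⟩
  · have h1 := hκ m
    have h2 := hy m
    have h3 := hy l
    have h4 : y l * κ m / y m ≤ y l * κ' m / y m := by gcongr
    have h5 := Real.sqrt_nonneg (∑ p ∈ X l, u p ^ 2)
    have h6 := Real.sqrt_nonneg (∑ q ∈ X m, v q ^ 2)
    gcongr
  · have h1 : ∀ l, 0 ≤ κ l / y l := fun l => div_nonneg (hκ0 l) (hy l).le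
    refine pow_le_pow_left₀ (pr_nonneg h1 τ) (pr_mono h1 (fun l => ?_) τ) 2
    have := hy l
    have := hκ l
    gcongr

end bdt

section bts

variable {ι : Type} [Fintype ι] [DecidableEq ι] {V : ι → Type} [∀ i, Fintype (V i)]
  [∀ i, DecidableEq (V i)] {J : Type} [Fintype J] [DecidableEq J]
  {lam : ∀ i, V i → ℝ} {rho e : ι → ℝ} {mu mu' : (∀ i, V i) → ℝ}

/-- letters of the full law from letters of a marginal law -/
theorem bdt_full {p : ι → Prop} [DecidablePred p] (hmu : ∑ x, mu x = 1) {sc : ι → J}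
    {ell : J → ℝ} {j : J} (hp : ∀ i, ell (sc i) ≤ ell j → p i)
    {VV : J → Finset (Σ i : {i // p i}, Option (V i))} (hV : ∀ l ω, ω ∈ VV l ↔ sc ω.1 = l)
    {R E : {i // p i} → ℝ} {R0 E0 : ι → ℝ} (hR : ∀ i : {i // p i}, R0 i = R i)
    (hE : ∀ i : {i // p i}, E0 i = E i) {b : ℕ} {y κ : J → ℝ} {N : J → J → ℝ}
    (h : BdT VV b y κ N (Tn (lsub p lam) (msub p mu) R E)) :
    BdT (VJ V sc ell j) b y κ N (Tn lam mu R0 E0) := by
  classical
  have h1 := bdt_subX h (X' := fun l => if ell l ≤ ell j then VV l else ∅) fun l => by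
    split_ifs
    · exact Finset.Subset.refl _
    · exact Finset.empty_subset _
  have hX : ∀ l, VJ V sc ell j l = (if ell l ≤ ell j then VV l else ∅).map
      ⟨ef (V := V) (Subtype.val : {i // p i} → ι), ef_inj Subtype.val_injective⟩ := by
    intro l
    unfold VJ
    split_ifs with hl
    · ext ⟨i, a⟩
      rw [mem_filter, mem_map]
      constructor
      · rintro ⟨-, h2⟩
        have h3 : sc i = l := h2
        exact ⟨⟨⟨i, hp i (by rw [h3]; exact hl)⟩, a⟩, (hV _ _).2 h3, rfl⟩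
      · rintro ⟨⟨⟨i', hi'⟩, a'⟩, h2, h3⟩
        have h4 : sc i' = l := (hV _ _).1 h2
        have h5 : (⟨i', a'⟩ : Σ i, Option (V i)) = ⟨i, a⟩ := h3
        rw [← h5]
        exact ⟨mem_univ _, h4⟩
    · simp
  refine (bdt_ef (V := V) (lam := lam) (f := (Subtype.val : {i // p i} → ι))
    Subtype.val_injective hmu R0 E0 hX).2 ?_
  have e1 : (fun i : {i // p i} => R0 i) = R := funext hR
  have e2 : (fun i : {i // p i} => E0 i) = E := funext hE
  rw [e1, e2]
  exact h1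

/-- **`BT` from `BTS`**, with a smaller `c1` -/
theorem bt_of_bts {p : ι → Prop} [DecidablePred p] (hmu : ∑ x, mu x = 1) (hmu' : ∑ x, mu' x = 1)
    {sc : ι → J} {ell : J → ℝ} (hell : ∀ j, 0 ≤ ell j) {g c1 c1' c2 : ℝ} (hc : c1' ≤ c1)
    {A b : ℕ} {j : J} {σ : ℝ} {VV : J → Finset (Σ i : {i // p i}, Option (V i))}
    {R E : {i // p i} → ℝ} {N : J → J → ℝ}
    (h : BTS p lam rho e mu mu' sc ell g c1 c2 A b j σ VV R E N) :
    ∃ R0 E0 : ι → ℝ, BT lam rho e mu mu' sc ell g c1' c2 A b j σ R0 E0 N := by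
  classical
  have hk : ∀ l, Real.exp (-(c1 * ell l)) ≤ Real.exp (-(c1' * ell l)) := fun l =>
    Real.exp_le_exp.2 (by have := mul_le_mul_of_nonneg_right hc (hell l); linarith)
  have hk0 : ∀ l, 0 ≤ Real.exp (-(c1 * ell l)) := fun l => (Real.exp_pos _).le
  refine ⟨fun i => if hi : p i then R ⟨i, hi⟩ else 1, fun i => if hi : p i then E ⟨i, hi⟩ else 1,
    h.s0, h.s1, fun i => ?_, fun i => ?_, fun i hi => ?_, fun i hi => ?_,
    bdt_mono_kap (bdt_full hmu h.hp h.hV (fun i => ?_) (fun i => ?_) h.bd)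
      (fun l => Real.exp_pos _) hk0 hk,
    bdt_mono_kap (bdt_full hmu' h.hp h.hV (fun i => ?_) (fun i => ?_) h.bd')
      (fun l => Real.exp_pos _) hk0 hk, h.N0, h.N1, h.N2⟩
  · by_cases hi : p i
    · rw [dif_pos hi]; exact h.R0 _
    · rw [dif_neg hi]; exact one_pos
  · by_cases hi : p i
    · rw [dif_pos hi]; exact h.E0 _
    · rw [dif_neg hi]; exact one_pos
  · rw [dif_pos (h.hp i hi)]; exact h.R1 ⟨i, h.hp i hi⟩
  · rw [dif_pos (h.hp i hi)]; exact h.E1 ⟨i, h.hp i hi⟩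
  · exact dif_pos i.2
  · exact dif_pos i.2
  · exact dif_pos i.2
  · exact dif_pos i.2

end bts

section ob

variable {ι : Type*} [Fintype ι] [DecidableEq ι] {V : ι → Type*} [∀ i, Fintype (V i)]
  [∀ i, DecidableEq (V i)] {lam : ∀ i, V i → ℝ} {K : ∀ i, V i → V i → ℝ} {c : ι → ℝ}
  {u u' : ∀ i, V i → ℝ} {s : ∀ i, V i → V i → ℝ} {rho e rho' e' : ι → ℝ}

/-- the norms of the kernels are monotone -/
theorem OB_mono (h0 : ∀ i a, 0 ≤ lam i a) (H : OB lam K c u u' s rho e)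
    (hr : ∀ i, rho i ≤ rho' i) (he : ∀ i, e i ≤ e' i) : OB lam K c u u' s rho' e' where
  rho0 i := (H.rho0 i).trans (hr i)
  e0 i := (H.e0 i).trans (he i)
  split := H.split
  sl := H.sl
  sr := H.sr
  ul := H.ul
  ur := H.ur
  cn i := (H.cn i).trans (he i)
  un i := (H.un i).trans (mul_le_mul (hr i) (he i) (H.e0 i) ((H.rho0 i).trans (hr i)))
  un' i := (H.un' i).trans (mul_le_mul (hr i) (he i) (H.e0 i) ((H.rho0 i).trans (hr i)))
  sn i f := (H.sn i f).trans (mul_le_mul_of_nonneg_right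
    (pow_le_pow_left₀ (H.rho0 i) (hr i) 2)
    (Finset.sum_nonneg fun b _ => mul_nonneg (h0 i b) (sq_nonneg _)))

/-- the pairing is homogeneous in the kernels -/
theorem FK_scale (χ : ι → ℝ) (mu mu' : (∀ i, V i) → ℝ) (B : Finset ι) :
    FK (fun i a b => χ i * K i a b) mu mu' B = (∏ i ∈ B, χ i) * FK K mu mu' B := by
  unfold FK
  rw [Finset.mul_sum]
  refine Finset.sum_congr rfl fun x _ => ?_
  rw [Finset.mul_sum]
  refine Finset.sum_congr rfl fun y _ => ?_
  rw [Finset.prod_mul_distrib]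
  ring

/-- two weighted one-coordinate sums -/
theorem sum_m1 (mu : (∀ i, V i) → ℝ) (i : ι) (f : V i → ℝ) :
    ∑ x, mu x * f (x i) = ∑ a, m1 mu i a * f a := by
  unfold m1
  have h1 : ∀ a, (∑ y, if y i = a then mu y else 0) * f a =
      ∑ y, if y i = a then mu y * f a else 0 := fun a => by
    rw [Finset.sum_mul]
    exact Finset.sum_congr rfl fun y _ => by split_ifs <;> simp
  rw [Finset.sum_congr rfl fun a _ => h1 a, Finset.sum_comm]
  refine Finset.sum_congr rfl fun x _ => ?_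
  rw [Finset.sum_ite_eq]
  simp

/-- Jensen for a sub-probability dominated by the reference -/
theorem abs_sum_le {A : Type*} [Fintype A] {m l : A → ℝ} {g B : ℝ} {f : A → ℝ}
    (hm : ∀ a, 0 ≤ m a) (hm1 : ∑ a, m a = 1) (hml : ∀ a, m a ≤ g * l a)
    (hf : ∑ a, l a * f a ^ 2 ≤ B ^ 2) (hg : 0 ≤ g) (hB : 0 ≤ B) :
    |∑ a, m a * f a| ≤ √g * B := by
  have h1 : (∑ a, m a * f a) ^ 2 ≤ g * B ^ 2 := by
    have h2 := Finset.sum_mul_sq_le_sq_mul_sq univ (fun a => √(m a)) (fun a => √(m a) * f a)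
    have e1 : ∑ a, √(m a) * (√(m a) * f a) = ∑ a, m a * f a :=
      Finset.sum_congr rfl fun a _ => by rw [← mul_assoc, Real.mul_self_sqrt (hm a)]
    have e2 : ∑ a, √(m a) ^ 2 = 1 := by
      rw [← hm1]
      exact Finset.sum_congr rfl fun a _ => Real.sq_sqrt (hm a)
    have e3 : ∑ a, (√(m a) * f a) ^ 2 = ∑ a, m a * f a ^ 2 :=
      Finset.sum_congr rfl fun a _ => by rw [mul_pow, Real.sq_sqrt (hm a)]
    rw [e1, e2, e3, one_mul] at h2
    refine h2.trans ?_
    have h3 : ∑ a, m a * f a ^ 2 ≤ ∑ a, g * (l a * f a ^ 2) := Finset.sum_le_sum fun a _ => by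
      have := mul_le_mul_of_nonneg_right (hml a) (sq_nonneg (f a))
      linarith
    rw [← Finset.mul_sum] at h3
    exact h3.trans (mul_le_mul_of_nonneg_left hf hg)
  rw [← Real.sqrt_sq_eq_abs]
  refine (Real.sqrt_le_sqrt h1).trans (le_of_eq ?_)
  rw [Real.sqrt_mul hg, Real.sqrt_sq hB]

/-- **one coordinate** -/
theorem FK_one (h0 : ∀ i a, 0 ≤ lam i a) (H : OB lam K c u u' s rho e)
    {mu mu' : (∀ i, V i) → ℝ} (hmu0 : ∀ x, 0 ≤ mu x) (hmu : ∑ x, mu x = 1)
    (hmu0' : ∀ x, 0 ≤ mu' x) (hmu' : ∑ x, mu' x = 1) {i : ι} {g D : ℝ} (hg : 1 ≤ g)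
    (hm : ∀ a, m1 mu i a ≤ g * lam i a) (hm' : ∀ a, m1 mu' i a ≤ g * lam i a)
    (hr : rho i ≤ D) (he : e i ≤ D) : |FK K mu mu' {i}| ≤ 4 * (g * D) := by
  have hg0 : 0 ≤ g := by linarith
  have hr0 := H.rho0 i
  have he0 := H.e0 i
  have hD : 0 ≤ D := hr0.trans hr
  have hm0 : ∀ a, 0 ≤ m1 mu i a := fun a => Finset.sum_nonneg fun y _ => by
    split_ifs
    · exact hmu0 y
    · exact le_rfl
  have hm0' : ∀ a, 0 ≤ m1 mu' i a := fun a => Finset.sum_nonneg fun y _ => by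
    split_ifs
    · exact hmu0' y
    · exact le_rfl
  have hm1 : ∑ a, m1 mu i a = 1 := by
    have := sum_m1 mu i fun _ => 1
    simp only [mul_one] at this
    rw [← this, hmu]
  have hm1' : ∑ a, m1 mu' i a = 1 := by
    have := sum_m1 mu' i fun _ => 1
    simp only [mul_one] at this
    rw [← this, hmu']
  have hsg : √g ≤ g := by
    rw [Real.sqrt_le_left hg0]
    nlinarith
  have e1 : FK K mu mu' {i} = ∑ a, m1 mu i a * ∑ b, m1 mu' i b * K i a b := by
    rw [← sum_m1]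
    unfold FK
    refine Finset.sum_congr rfl fun x _ => ?_
    rw [← sum_m1, Finset.mul_sum]
    refine Finset.sum_congr rfl fun y _ => ?_
    rw [Finset.prod_singleton]
    ring
  have e2 : ∀ a, ∑ b, m1 mu' i b * K i a b =
      c i + u i a + ∑ b, m1 mu' i b * u' i b + ∑ b, m1 mu' i b * s i a b := by
    intro a
    have h1 : ∀ b, m1 mu' i b * K i a b = m1 mu' i b * c i + m1 mu' i b * u i a +
        m1 mu' i b * u' i b + m1 mu' i b * s i a b := fun b => by rw [H.split]; ring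
    rw [Finset.sum_congr rfl fun b _ => h1 b, Finset.sum_add_distrib, Finset.sum_add_distrib,
      Finset.sum_add_distrib, ← Finset.sum_mul, ← Finset.sum_mul, hm1', one_mul, one_mul]
  have e3 : FK K mu mu' {i} = c i + ∑ a, m1 mu i a * u i a + ∑ b, m1 mu' i b * u' i b +
      ∑ a, m1 mu i a * ∑ b, m1 mu' i b * s i a b := by
    rw [e1]
    have h1 : ∀ a, m1 mu i a * ∑ b, m1 mu' i b * K i a b = m1 mu i a * c i +
        m1 mu i a * u i a + m1 mu i a * (∑ b, m1 mu' i b * u' i b) +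
        m1 mu i a * ∑ b, m1 mu' i b * s i a b := fun a => by rw [e2]; ring
    rw [Finset.sum_congr rfl fun a _ => h1 a, Finset.sum_add_distrib, Finset.sum_add_distrib,
      Finset.sum_add_distrib, ← Finset.sum_mul, ← Finset.sum_mul, hm1, one_mul, one_mul]
  have hgD : D ≤ g * D := by nlinarith
  have b1 : |c i| ≤ g * D := (H.cn i).trans (he.trans hgD)
  have hre : rho i * e i ≤ D ^ 2 := by
    rw [_root_.sq]
    exact mul_le_mul hr he he0 hD
  have b2 : |∑ a, m1 mu i a * u i a| ≤ g * D :=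
    (abs_sum_le hm0 hm1 hm ((H.un i).trans hre) hg0 hD).trans
      (mul_le_mul_of_nonneg_right hsg hD)
  have b3 : |∑ b, m1 mu' i b * u' i b| ≤ g * D :=
    (abs_sum_le hm0' hm1' hm' ((H.un' i).trans hre) hg0 hD).trans
      (mul_le_mul_of_nonneg_right hsg hD)
  have b4 : |∑ a, m1 mu i a * ∑ b, m1 mu' i b * s i a b| ≤ g * D := by
    -- the density of the second marginal
    set f : V i → ℝ := fun b => m1 mu' i b / lam i b with hf
    have h1 : ∀ b, m1 mu' i b = lam i b * f b := by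
      intro b
      by_cases hb : lam i b = 0
      · have h2 := hm' b
        rw [hb, mul_zero] at h2
        rw [hb, zero_mul]
        exact le_antisymm h2 (hm0' b)
      · rw [hf]
        field_simp
    have h3 : ∀ a, ∑ b, m1 mu' i b * s i a b = ∑ b, lam i b * (s i a b * f b) := fun a =>
      Finset.sum_congr rfl fun b _ => by rw [h1]; ring
    have h4 : ∑ b, lam i b * f b ^ 2 ≤ g := by
      have h5 : ∀ b, lam i b * f b ^ 2 ≤ g * m1 mu' i b := by
        intro b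
        have h6 : lam i b * f b ^ 2 = m1 mu' i b * f b := by rw [h1 b]; ring
        rw [h6]
        have h7 : f b ≤ g := by
          by_cases hb : lam i b = 0
          · rw [hf]
            simp [hb, hg0]
          · have hb' : 0 < lam i b := lt_of_le_of_ne (h0 i b) (Ne.symm hb)
            rw [hf]
            simp only
            rw [div_le_iff₀ hb']
            exact hm' b
        rw [mul_comm g]
        exact mul_le_mul_of_nonneg_left h7 (hm0' b)
      refine (Finset.sum_le_sum fun b _ => h5 b).trans ?_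
      rw [← Finset.mul_sum, hm1', mul_one]
    have h8 : ∑ a, lam i a * (∑ b, lam i b * (s i a b * f b)) ^ 2 ≤ (√g * D) ^ 2 := by
      refine (H.sn i f).trans ?_
      rw [mul_pow, Real.sq_sqrt hg0, mul_comm g]
      exact mul_le_mul (pow_le_pow_left₀ hr0 hr 2) h4
        (Finset.sum_nonneg fun b _ => mul_nonneg (h0 i b) (sq_nonneg _)) (sq_nonneg _)
    have h9 := abs_sum_le (f := fun a => ∑ b, lam i b * (s i a b * f b)) hm0 hm1 hm h8 hg0
      (by positivity)
    have h10 : ∑ a, m1 mu i a * ∑ b, m1 mu' i b * s i a b =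
        ∑ a, m1 mu i a * ∑ b, lam i b * (s i a b * f b) :=
      Finset.sum_congr rfl fun a _ => by rw [h3]
    rw [h10]
    refine h9.trans (le_of_eq ?_)
    rw [← mul_assoc, Real.mul_self_sqrt hg0]
  rw [e3]
  have t1 := abs_add_le (c i + ∑ a, m1 mu i a * u i a + ∑ b, m1 mu' i b * u' i b)
    (∑ a, m1 mu i a * ∑ b, m1 mu' i b * s i a b)
  have t2 := abs_add_le (c i + ∑ a, m1 mu i a * u i a) (∑ b, m1 mu' i b * u' i b)
  have t3 := abs_add_le (c i) (∑ a, m1 mu i a * u i a)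
  linarith

end ob

end Vale.Agent.P042.H564.Oo
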