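import Vale.Agent.P042.H564.BoB
import Vale.Agent.P042.H564.BoK
import Vale.Agent.P042.H564.BoDef

/-!
# P042, F.INF3: the statement about one super-modulus from `BTSof` and the rows
-/

set_option autoImplicit false
set_option linter.unusedSectionVars false

namespace Vale.Agent.P042.H564.Oo

open Finset Vale.Agent.P042.H232 Vale.Agent.P042.H461 Vale.Agent.P042.H742 Vale.Agent.P042.H365
  Vale.Agent.P042.H416 Vale.Agent.P042.H92
open Vale.Agent.P042.H779 (m1 marg)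
open Vale.Agent.P042.H384 (lf)
open Vale.Agent.P042.H284 (tyi FK rs co zF co_zF BTS OB_scale)

section mono

variable {ι : Type*} [Fintype ι] [DecidableEq ι] {V : ι → Type*} [∀ i, Fintype (V i)]
  [∀ i, DecidableEq (V i)] {J : Type*}

theorem RwO.mono_c {lam : ∀ i, V i → ℝ} {mu : (∀ i, V i) → ℝ} {sc : ι → Option J} {ell : J → ℝ}
    {g c1 c1' : ℝ} {b : ℕ} {R E r K : ι → ℝ} {θ L : ℝ}
    (h : RwO lam mu sc ell g c1 b R E r K θ L) (hell : ∀ j, 0 ≤ ell j) (hc : c1' ≤ c1) :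
    RwO lam mu sc ell g c1' b R E r K θ L := by
  have h1 : ∀ i, Real.exp (-(2 * (c1 + g) * el ell (sc i))) ≤
      Real.exp (-(2 * (c1' + g) * el ell (sc i))) := fun i => by
    apply Real.exp_le_exp.2
    have h2 := el_nonneg hell (sc i)
    have h3 : (c1' + g) * el ell (sc i) ≤ (c1 + g) * el ell (sc i) :=
      mul_le_mul_of_nonneg_right (by linarith) h2
    linarith
  exact ⟨h.rws, h.ref, h.sum, h.K1, h.g1, h.th, h.b1, h.R0, h.E0, h.coord,
    fun i => (h.leg i).trans (mul_le_mul_of_nonneg_right (h1 i) (h.rws.r0 i)),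
    fun i => (h.legE i).trans (h1 i), h.root, h.uniq⟩

end mono

/-- a law is at most its one-coordinate marginals -/
theorem le_m1 {ι : Type*} [Fintype ι] [DecidableEq ι] {V : ι → Type*} [∀ i, Fintype (V i)]
    [∀ i, DecidableEq (V i)] {mu : (∀ i, V i) → ℝ} (h0 : ∀ x, 0 ≤ mu x)
    (x : ∀ i, V i) (i : ι) : mu x ≤ m1 mu i (x i) := by
  unfold H779.m1
  rw [← Finset.sum_filter]
  exact Finset.single_le_sum (f := mu) (fun y _ => h0 y)
    (Finset.mem_filter.2 ⟨Finset.mem_univ x, rfl⟩)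

section fixed

variable {ι : Type} [Fintype ι] [DecidableEq ι] {V : Option ι → Type} [∀ i, Fintype (V i)]
  [∀ i, DecidableEq (V i)] {J : Type} [Fintype J] [DecidableEq J]
  {Q : Prm} {K0 : ℕ} {ℓ es : Option ι → ℝ} {sc : ι → J} {sn : J → ℕ} {ell : J → ℝ}
  {lo : Option ι → Prop} {lam lam2 u : ∀ i, V i → ℝ}
  {K : ∀ i, V i → V i → ℝ} {c : Option ι → ℝ} {v v' : ∀ i, V i → ℝ}
  {s : ∀ i, V i → V i → ℝ} {rho e : Option ι → ℝ} {mu mu' : (∀ i, V i) → ℝ}

theorem acO (h : PLaw Q (univ.erase none) ℓ es lam u mu) (low : ∀ i, lo i → lam2 i = lam i)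
    (high : ∀ i, ¬ lo i → lam2 i = u i) (x : ∀ i, V i) (hx : mu x ≠ 0) (i : Option ι) :
    lam2 i (x i) ≠ 0 := by
  by_cases h' : lo i
  · rw [low i h']
    intro h0
    have h1 := h.ref.ac i (x i) h0
    exact hx (le_antisymm (h1 ▸ le_m1 h.ref.prob.nonneg x i) (h.ref.prob.nonneg x))
  · rw [high i h', h.u1]
    exact (Real.exp_pos _).ne'

/-- the marginal law at the super-modulus -/
theorem m1O (h : PLaw Q (univ.erase none) ℓ es lam u mu) (hl : lam2 none = u none)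
    (hΛ : ℓ none ≤ Q.Λ) (a : V none) :
    m1 mu none a ≤ Real.exp (Q.a0 + Q.γ * ℓ none) * lam2 none a := by
  classical
  obtain ⟨x0⟩ : Nonempty (∀ i, V i) := by
    by_contra hc
    rw [not_nonempty_iff] at hc
    have h1 := h.ref.prob.sum_eq
    simp at h1
  have h1 := h.sup {none} (by simpa [H779.Ab.Ll.len] using hΛ) (Function.update x0 none a)
  unfold costP at h1
  simp only [H779.Ab.Ll.len, Finset.sum_singleton] at h1
  have h2 : marg mu {none} (Function.update x0 none a) = m1 mu none a := by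
    unfold marg m1
    refine Finset.sum_congr rfl fun y _ => ?_
    simp
  have h3 : lw lam {none} (Function.update x0 none a) = lam2 none a := by
    unfold lw
    rw [Finset.prod_singleton, Function.update_self, hl, h.out none (by simp)]
  rw [h2, h3] at h1
  exact h1

open Classical in
/-- **the statement for one system** -/
theorem bo_fixed {c1 c1a c1b c2 g : ℝ} {Aa Ab k b0 : ℕ}
    (hS : Scl Q K0 univ (fun i => ℓ (some i)) (fun i => es (some i)) sc sn ell)
    (hP : PPair Q (univ.erase none) ℓ es lo lam lam2 u K c v v' s rho e mu mu')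
    (hP0 : PPair Q univ (fun i => ℓ (some i)) (fun i => es (some i)) (fun i => lo (some i))
      (fun i => lam (some i)) (fun i => lam2 (some i)) (fun i => u (some i))
      (fun i => K (some i)) (fun i => c (some i)) (fun i => v (some i)) (fun i => v' (some i))
      (fun i => s (some i)) (fun i => rho (some i)) (fun i => e (some i))
      (H461.push rs mu) (H461.push rs mu'))
    (hrk : rho none ≤ Real.exp (k * ℓ none)) (hek : e none ≤ Real.exp (k * ℓ none))
    (hg : 0 ≤ g) (hc1 : 0 ≤ c1) (hca : c1 ≤ c1a) (hcb : c1 ≤ c1b) (hc2 : c1 + g ≤ c2)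
    (hell : ∀ j, 2 ≤ ell j) (hellA : ∀ j, 2 * ((max Aa Ab : ℕ) : ℝ) ≤ ell j)
    (hΛ : ℓ none ≤ Q.Λ) (ha0 : 0 ≤ Q.a0) (ha0' : Q.a0 ≤ ℓ none) (hγ0 : 0 ≤ Q.γ) (hγ : Q.γ ≤ 1)
    (hℓ2 : 2 ≤ ℓ none)
    (HB : ∀ rho' e' : ι → ℝ,
      PPair Q univ (fun i => ℓ (some i)) (fun i => es (some i)) (fun i => lo (some i))
        (fun i => lam (some i)) (fun i => lam2 (some i)) (fun i => u (some i))
        (fun i => K (some i)) (fun i => c (some i)) (fun i => v (some i)) (fun i => v' (some i))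
        (fun i => s (some i)) rho' e' (H461.push rs mu) (H461.push rs mu') →
      ∀ b : ℕ, 1 ≤ b → b ≤ b0 + 1 → ∀ j : J,
      ∃ (p : ι → Prop) (_ : DecidablePred p) (σ : ℝ)
        (VV : J → Finset (Σ i : {i // p i}, Option (V (some i)))) (R E : {i // p i} → ℝ)
        (N : J → J → ℝ),
        BTS p (fun i => lam2 (some i)) rho' e' (H461.push rs mu) (H461.push rs mu') sc ell g
          c1a c2 Aa b j σ VV R E N)
    (HR : ∀ nu : (∀ i, V i) → ℝ, PLaw Q (univ.erase none) ℓ es lam u nu →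
      ∀ rho' e' : Option ι → ℝ, (∀ i, 0 ≤ rho' i) → (∀ i, 0 ≤ e' i) →
      (∀ i, rho' (some i) ≤ Real.exp (-(1 / 2) * es (some i) + Q.γ * es (some i))) →
      (∀ i, e' (some i) ≤ Real.exp (-es (some i) + Q.γ * es (some i))) →
      rho' none ≤ Real.exp (-(20 * ℓ none)) → e' none ≤ Real.exp (-(20 * ℓ none)) →
      ∀ b : ℕ, 2 ≤ b → b ≤ b0 + 1 → ∀ (j : J) (σ : ℝ), 0 < σ →
      σ ≤ (((1 + ℓ none) * (b * ell j)) ^ Ab)⁻¹ →
      RwOK lam2 rho' e' nu sc ell g c1b b j σ) :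
    ∃ W : (J →₀ ℕ) → ℝ,
      (∀ a : J →₀ ℕ, ∑ B ∈ (univ : Finset ι).powerset with tyi sc B = a,
            FK K mu mu' (Finset.insertNone B) =
          ∑ x ∈ HasAntidiagonal.antidiagonal a, W x.1 *
            ∑ B ∈ (univ : Finset ι).powerset with tyi sc B = x.2,
              FK (fun i => K (some i)) (H461.push rs mu) (H461.push rs mu') B) ∧
      (∀ a : J →₀ ℕ, a.degree ≤ b0 →
        |W a| ≤ Real.exp (((max (k + 21) (10 * max Aa Ab + 12) : ℕ) : ℝ) * ℓ none +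
          ((max (k + 21) (10 * max Aa Ab + 12) : ℕ) : ℝ) * a.degree * Real.log (lf ell a) -
            c1 * lf ell a)) := by
  have hlow := hP.low
  have hhigh := hP.high
  have hnlo : ¬ lo none := fun h => by simpa using (hP.lo1 none h).1
  have hl2 : lam2 none = u none := hhigh none hnlo
  set m : ℕ := Fintype.card (V none) with hm
  have hlm : ℓ none = Real.log m := ell_card hP.law none
  -- the rescaled kernels
  set D : ℝ := Real.exp (-((k + 20 : ℝ) * ℓ none)) with hD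
  set χ : Option ι → ℝ := fun i => if i = none then D else 1 with hχ
  have hχ0 : ∀ i, 0 ≤ χ i := fun i => by
    simp only [hχ]
    split_ifs
    · exact (Real.exp_pos _).le
    · exact zero_le_one
  have hχn : χ none = D := by simp [hχ]
  have hχs : ∀ i : ι, χ (some i) = 1 := fun i => by simp [hχ]
  set rho' : Option ι → ℝ := fun i =>
    if i = none then Real.exp (-(20 * ℓ none)) else Real.exp (-(1 / 2) * es i + Q.γ * es i)
    with hrho'
  set e' : Option ι → ℝ := fun i =>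
    if i = none then Real.exp (-(20 * ℓ none)) else Real.exp (-es i + Q.γ * es i) with he'
  have hrn : rho' none = Real.exp (-(20 * ℓ none)) := by simp [hrho']
  have hen : e' none = Real.exp (-(20 * ℓ none)) := by simp [he']
  have hrs : ∀ i : ι, rho' (some i) = Real.exp (-(1 / 2) * es (some i) + Q.γ * es (some i)) :=
    fun i => by simp [hrho']
  have hes : ∀ i : ι, e' (some i) = Real.exp (-es (some i) + Q.γ * es (some i)) :=
    fun i => by simp [he']
  have hr0 : ∀ i, 0 < rho' i := fun i => by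
    simp only [hrho']
    split_ifs <;> exact Real.exp_pos _
  have he0 : ∀ i, 0 < e' i := fun i => by
    simp only [he']
    split_ifs <;> exact Real.exp_pos _
  have hsc : ∀ x : ℝ, x ≤ Real.exp (k * ℓ none) → D * x ≤ Real.exp (-(20 * ℓ none)) := by
    intro x hx
    refine (mul_le_mul_of_nonneg_left hx (Real.exp_pos _).le).trans (le_of_eq ?_)
    rw [← Real.exp_add]
    congr 1
    ring
  have hOB := OB_mono hP.nn (OB_scale hP.ob hχ0) (rho' := rho') (e' := e') (fun i => by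
    cases i with
    | none =>
      rw [hχn, hrn]
      exact hsc _ hrk
    | some i =>
      rw [hχs, one_mul, hrs]
      exact hP.rho1 (some i) (by simp)) (fun i => by
    cases i with
    | none =>
      rw [hχn, hen]
      exact hsc _ hek
    | some i =>
      rw [hχs, one_mul, hes]
      exact hP.e1 (some i) (by simp))
  have hKs : (fun (i : ι) (a b : V (some i)) => χ (some i) * K (some i) a b) =
      fun i => K (some i) := by
    funext i a b
    rw [hχs, one_mul]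
  -- the ordinary pair with the larger norms
  have hP1 : PPair Q univ (fun i => ℓ (some i)) (fun i => es (some i)) (fun i => lo (some i))
      (fun i => lam (some i)) (fun i => lam2 (some i)) (fun i => u (some i))
      (fun i => K (some i)) (fun i => c (some i)) (fun i => v (some i)) (fun i => v' (some i))
      (fun i => s (some i)) (fun i => rho' (some i)) (fun i => e' (some i))
      (H461.push rs mu) (H461.push rs mu') :=
    ⟨hP0.law, hP0.law', OB_mono hP0.nn hP0.ob (fun i => by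
        rw [hrs]; exact hP0.rho1 i (Finset.mem_univ _)) (fun i => by
        rw [hes]; exact hP0.e1 i (Finset.mem_univ _)), hP0.nn, hP0.one, hP0.low, hP0.high,
      hP0.lo1, hP0.lo2, fun i _ => (hrs i).le, fun i _ => (hes i).le⟩
  have hmu := hP.law.ref.prob.sum_eq
  have hmu' := hP.law'.ref.prob.sum_eq
  have hmur : ∑ x, push rs mu x = 1 := by rw [sum_push_one, hmu]
  have hmur' : ∑ x, push rs mu' x = 1 := by rw [sum_push_one, hmu']
  have hell0 : ∀ j, 0 ≤ ell j := fun j => by linarith [hell j]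
  have hDpos : 0 < D := Real.exp_pos _
  set M0 : ℝ := Real.exp ((k + 20 : ℝ) * ℓ none) with hM0
  have hM0D : M0 * D = 1 := by
    rw [hM0, hD, ← Real.exp_add]
    simp
  have hFK : ∀ B : Finset ι, M0 * FK (fun i a b => χ i * K i a b) mu mu' (Finset.insertNone B) =
      FK K mu mu' (Finset.insertNone B) := by
    intro B
    rw [FK_scale]
    have h1 : ∏ i ∈ Finset.insertNone B, χ i = D := by
      rw [Finset.prod_insertNone, hχn, Finset.prod_eq_one fun i _ => hχs i, mul_one]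
    rw [h1, ← mul_assoc, hM0D, one_mul]
  have h00 : |M0 * FK (fun i a b => χ i * K i a b) mu mu' (Finset.insertNone ∅)| ≤
      Real.exp (((k + 20 : ℝ) + 1) * Real.log m) := by
    rw [hFK]
    have h1 : (Finset.insertNone (∅ : Finset ι)) = {none} := by
      ext i
      cases i <;> simp
    rw [h1]
    have h2 := FK_one hP.nn hP.ob hP.law.ref.prob.nonneg hmu hP.law'.ref.prob.nonneg hmu'
      (i := none) (g := Real.exp (Q.a0 + Q.γ * ℓ none)) (D := Real.exp (k * ℓ none))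
      (Real.one_le_exp (by positivity)) (m1O hP.law hl2 hΛ) (m1O hP.law' hl2 hΛ) hrk hek
    refine h2.trans ?_
    rw [← hlm, ← Real.exp_add]
    have h3 : (4 : ℝ) ≤ Real.exp (ℓ none) := by
      have h4 : Real.exp 2 ≤ Real.exp (ℓ none) := Real.exp_le_exp.2 hℓ2
      have h5 : (4 : ℝ) ≤ Real.exp 2 := by
        have h6 := Real.quadratic_le_exp_of_nonneg (show (0 : ℝ) ≤ 2 by norm_num)
        linarith
      linarith
    refine (mul_le_mul_of_nonneg_right h3 (Real.exp_pos _).le).trans ?_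
    rw [← Real.exp_add]
    apply Real.exp_le_exp.2
    have h4 : Q.γ * ℓ none ≤ 1 * ℓ none := mul_le_mul_of_nonneg_right hγ (by linarith)
    linarith
  obtain ⟨wm, hE, hw0, hw⟩ := star_of (A := Aa) (A' := Ab) (b0 := b0) (m := m)
    (M0 := M0) (k := (k + 20 : ℝ)) hP.nn hOB hr0 he0 hmu hmu'
    (fun x hx i => acO hP.law hlow hhigh x hx i) (fun x hx i => acO hP.law' hlow hhigh x hx i)
    hell hellA hg hc1 hc2 (c2 := c2) (c1 := c1) (g := g) (sc := sc)
    (fun b hb1 hb2 j => by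
      obtain ⟨p, hp, σ, VV, R, E, N, hT⟩ := HB _ _ hP1 b hb1 hb2 j
      obtain ⟨R0, E0, h⟩ := bt_of_bts hmur hmur' hell0 hca hT
      exact ⟨σ, R0, E0, N, h⟩)
    (fun b hb1 hb2 j σ hσ hσ2 => by
      rw [← hlm] at hσ2
      obtain ⟨r1, K1, θ1, L1, h1⟩ := HR mu hP.law rho' e' (fun i => (hr0 i).le)
        (fun i => (he0 i).le) (fun i => (hrs i).le) (fun i => (hes i).le) hrn.le hen.le b hb1 hb2
        j σ hσ hσ2
      obtain ⟨r2, K2, θ2, L2, h2⟩ := HR mu' hP.law' rho' e' (fun i => (hr0 i).le)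
        (fun i => (he0 i).le) (fun i => (hrs i).le) (fun i => (hes i).le) hrn.le hen.le b hb1 hb2
        j σ hσ hσ2
      exact ⟨⟨r1, K1, θ1, L1, h1.mono_c hell0 hcb⟩, ⟨r2, K2, θ2, L2, h2.mono_c hell0 hcb⟩⟩)
    (by rw [hM0, hlm, abs_of_pos (Real.exp_pos _)]) h00
  refine ⟨wm, fun a => ?_, fun a ha => ?_⟩
  · have h1 := hE a
    rw [Finset.sum_congr rfl fun B _ => hFK B] at h1
    rw [h1]
    refine Finset.sum_congr rfl fun x _ => ?_
    rw [co_zF, hKs]
  · have hA1 : (k : ℝ) + 21 ≤ ((max (k + 21) (10 * max Aa Ab + 12) : ℕ) : ℝ) := by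
      exact_mod_cast le_max_left (k + 21) _
    have hA2 : ((10 * max Aa Ab + 12 : ℕ) : ℝ) ≤
        ((max (k + 21) (10 * max Aa Ab + 12) : ℕ) : ℝ) := by
      exact_mod_cast le_max_right (k + 21) _
    set AA : ℝ := ((max (k + 21) (10 * max Aa Ab + 12) : ℕ) : ℝ) with hAA
    have hℓ0 : 0 ≤ ℓ none := by linarith
    have hx1 : ((k + 20 : ℝ) + 1) * Real.log m ≤ AA * ℓ none := by
      rw [← hlm]
      exact mul_le_mul_of_nonneg_right (by linarith) hℓ0
    by_cases ha0 : a = 0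
    · subst ha0
      refine hw0.trans (Real.exp_le_exp.2 ?_)
      have h1 : lf ell (0 : J →₀ ℕ) = 0 := by simp [lf]
      rw [h1]
      simp only [map_zero, Nat.cast_zero, mul_zero, zero_mul, add_zero, sub_zero]
      exact hx1
    · refine (hw a ha0 ha).trans (Real.exp_le_exp.2 ?_)
      have h1 : ∑ j, (a j : ℝ) * ell j = lf ell a := rfl
      rw [h1]
      have h2 : (1 : ℝ) ≤ lf ell a := by
        obtain ⟨j, hj⟩ := Finsupp.ne_iff.1 ha0
        have h3 : (a j : ℝ) * ell j ≤ lf ell a :=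
          Finset.single_le_sum (f := fun j => (a j : ℝ) * ell j)
            (fun i _ => mul_nonneg (Nat.cast_nonneg _) (hell0 i)) (Finset.mem_univ j)
        have h4 : (1 : ℝ) ≤ a j := by
          have : 1 ≤ a j := Nat.one_le_iff_ne_zero.2 (by simpa using hj)
          exact_mod_cast this
        have h5 := hell j
        nlinarith
      have h3 : 0 ≤ Real.log (lf ell a) := Real.log_nonneg h2
      have h4 : ((10 * max Aa Ab + 12 : ℕ) : ℝ) * a.degree * Real.log (lf ell a) ≤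
          AA * a.degree * Real.log (lf ell a) := by
        gcongr
      linarith

end fixed

theorem numOa {M n : ℕ} (h : 4 * M + 4 ≤ n) : 2 * (M : ℝ) + 2 ≤ n * Real.log 2 := by
  have hl2 := Real.log_two_gt_d9
  have h2 : 4 * (M : ℝ) + 4 ≤ n := by exact_mod_cast h
  have h3 : (0 : ℝ) ≤ M := Nat.cast_nonneg _
  have h4 : (4 * (M : ℝ) + 4) * Real.log 2 ≤ n * Real.log 2 :=
    mul_le_mul_of_nonneg_right h2 (by linarith)
  have h5 : 2 * (M : ℝ) + 2 ≤ (4 * (M : ℝ) + 4) * Real.log 2 := by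
    have h6 : (4 * (M : ℝ) + 4) * (1 / 2) ≤ (4 * (M : ℝ) + 4) * Real.log 2 :=
      mul_le_mul_of_nonneg_left (by linarith) (by linarith)
    linarith
  exact h5.trans h4

theorem numOb {θ d1 p : ℝ} (hθ : 0 < θ) (hd : d1 ≤ 1 / 4) (hp2 : 2 ≤ p) (hpθ : 2 / θ ≤ p) :
    Real.exp (2 * d1 * p) ≤ θ * Real.exp p := by
  have h1 : 2 * d1 * p ≤ p / 2 := by
    have h2 : d1 * p ≤ 1 / 4 * p := mul_le_mul_of_nonneg_right hd (by linarith)
    linarith
  have h3 : Real.exp (2 * d1 * p) ≤ Real.exp (p / 2) := Real.exp_le_exp.2 h1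
  have h4 : 1 ≤ θ * Real.exp (p / 2) := by
    have h5 := Real.add_one_le_exp (p / 2)
    rw [div_le_iff₀ hθ] at hpθ
    have h6 : θ * (p / 2) ≤ θ * Real.exp (p / 2) :=
      mul_le_mul_of_nonneg_left (by linarith) hθ.le
    linarith
  have h6 : Real.exp p = Real.exp (p / 2) * Real.exp (p / 2) := by
    rw [← Real.exp_add]; congr 1; ring
  rw [h6]
  calc Real.exp (2 * d1 * p) ≤ 1 * Real.exp (p / 2) := by rw [one_mul]; exact h3
    _ ≤ (θ * Real.exp (p / 2)) * Real.exp (p / 2) :=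
        mul_le_mul_of_nonneg_right h4 (Real.exp_pos _).le
    _ = _ := by ring

theorem numOc {x : ℝ} (hx : 1 ≤ x) : (∀ b : ℕ, b ≤ ⌊x⌋₊ - 1 + 1 → (b : ℝ) ≤ x) ∧
    ∀ d : ℕ, (d : ℝ) + 1 ≤ x → d ≤ ⌊x⌋₊ - 1 := by
  have hfl : 1 ≤ ⌊x⌋₊ := (Nat.one_le_floor_iff _).2 hx
  constructor
  · intro b hb
    have h1 : b ≤ ⌊x⌋₊ := by omega
    exact (Nat.le_floor_iff (by linarith)).1 h1
  · intro d hd
    have h1 : d + 1 ≤ ⌊x⌋₊ := Nat.le_floor (by push_cast; exact hd)
    omega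

/-- the statement for one set of parameters -/
theorem bo_param {Q : Prm} {K0 K0a K0b : ℕ} {c1a c1b c2 g : ℝ} {Aa Ab k : ℕ}
    (hKa : K0a ≤ K0) (hKb : K0b ≤ K0) (hKA : 4 * max Aa Ab + 4 ≤ K0)
    (hc1a : 0 < c1a) (hc1b : 0 < c1b) (hg : 0 < g) (hc2 : c1a + g ≤ c2) (ha0 : 0 ≤ Q.a0)
    (hγ0 : 0 ≤ Q.γ) (hγ : Q.γ ≤ 1) (hθ : 0 < Q.θ) (hd0 : 0 < Q.d1) (hd : Q.d1 ≤ 1 / 4)
    (hpa0 : Q.a0 ≤ Q.p) (hp2 : 2 ≤ Q.p) (hpθ : 2 / Q.θ ≤ Q.p)
    (hB : ∀ (J : Type) [Fintype J] [DecidableEq J] (ι : Type) [Fintype ι] [DecidableEq ι]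
      (V : ι → Type) [∀ i, Fintype (V i)] [∀ i, DecidableEq (V i)] (ℓ es : ι → ℝ) (sc : ι → J)
      (sn : J → ℕ) (ell : J → ℝ) (lo : ι → Prop) (lam lam2 u : ∀ i, V i → ℝ)
      (K : ∀ i, V i → V i → ℝ) (c : ι → ℝ) (v v' : ∀ i, V i → ℝ) (s : ∀ i, V i → V i → ℝ)
      (rho e : ι → ℝ) (mu mu' : (∀ i, V i) → ℝ),
      Scl Q K0a univ ℓ es sc sn ell →
      PPair Q univ ℓ es lo lam lam2 u K c v v' s rho e mu mu' →
      ∀ b : ℕ, 1 ≤ b → (b : ℝ) ≤ Real.exp (Q.d1 * Q.p) → ∀ j : J,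
      ∃ (p : ι → Prop) (_ : DecidablePred p) (σ : ℝ)
        (VV : J → Finset (Σ i : {i // p i}, Option (V i))) (R E : {i // p i} → ℝ)
        (N : J → J → ℝ), BTS p lam2 rho e mu mu' sc ell g c1a c2 Aa b j σ VV R E N)
    (hR : ∀ (J : Type) [Fintype J] [DecidableEq J] (ι : Type) [Fintype ι] [DecidableEq ι]
      (V : Option ι → Type) [∀ i, Fintype (V i)] [∀ i, DecidableEq (V i)] (ℓ es : Option ι → ℝ)
      (sc : ι → J) (sn : J → ℕ) (ell : J → ℝ) (lo : Option ι → Prop)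
      (lam lam2 u : ∀ i, V i → ℝ) (rho e : Option ι → ℝ) (mu : (∀ i, V i) → ℝ),
      Scl Q K0b univ (fun i => ℓ (some i)) (fun i => es (some i)) sc sn ell →
      PLaw Q (univ.erase none) ℓ es lam u mu →
      (∀ i, lo i → lam2 i = lam i) → (∀ i, ¬ lo i → lam2 i = u i) → ¬ lo none →
      Q.p ≤ ℓ none → ℓ none ≤ Real.exp (2 * Q.d1 * Q.p) → (∀ i, 0 ≤ rho i) → (∀ i, 0 ≤ e i) →
      (∀ i, rho (some i) ≤ Real.exp (-(1 / 2) * es (some i) + Q.γ * es (some i))) →
      (∀ i, e (some i) ≤ Real.exp (-es (some i) + Q.γ * es (some i))) →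
      rho none ≤ Real.exp (-(20 * ℓ none)) → e none ≤ Real.exp (-(20 * ℓ none)) →
      ∀ b : ℕ, 2 ≤ b → (b : ℝ) ≤ Real.exp (Q.d1 * Q.p) → ∀ (j : J) (σ : ℝ), 0 < σ →
        σ ≤ (((1 + ℓ none) * (b * ell j)) ^ Ab)⁻¹ →
        ∀ [DecidablePred (po sc ell j)], RwOK lam2 rho e mu sc ell g c1b b j σ)
    (J : Type) [Fintype J] [DecidableEq J] (ι : Type) [Fintype ι] [DecidableEq ι]
    (V : Option ι → Type) [∀ i, Fintype (V i)] [∀ i, DecidableEq (V i)] (ℓ es : Option ι → ℝ)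
    (sc : ι → J) (sn : J → ℕ) (ell : J → ℝ) (lo : Option ι → Prop) (lam lam2 u : ∀ i, V i → ℝ)
    (K : ∀ i, V i → V i → ℝ) (c : Option ι → ℝ) (v v' : ∀ i, V i → ℝ)
    (s : ∀ i, V i → V i → ℝ) (rho e : Option ι → ℝ) (mu mu' : (∀ i, V i) → ℝ)
    (hS : Scl Q K0 univ (fun i => ℓ (some i)) (fun i => es (some i)) sc sn ell)
    (hP : PPair Q (univ.erase none) ℓ es lo lam lam2 u K c v v' s rho e mu mu')
    (hP0 : PPair Q univ (fun i => ℓ (some i)) (fun i => es (some i)) (fun i => lo (some i))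
      (fun i => lam (some i)) (fun i => lam2 (some i)) (fun i => u (some i))
      (fun i => K (some i)) (fun i => c (some i)) (fun i => v (some i)) (fun i => v' (some i))
      (fun i => s (some i)) (fun i => rho (some i)) (fun i => e (some i))
      (H461.push rs mu) (H461.push rs mu'))
    (hpl : Q.p ≤ ℓ none) (hlu : ℓ none ≤ Real.exp (2 * Q.d1 * Q.p))
    (hrk : rho none ≤ Real.exp (k * ℓ none)) (hek : e none ≤ Real.exp (k * ℓ none)) :
    ∃ W : (J →₀ ℕ) → ℝ,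
      (∀ a : J →₀ ℕ, (a.degree : ℝ) + 1 ≤ Real.exp (Q.d1 * Q.p) →
        ∑ B ∈ (univ : Finset ι).powerset with tyi sc B = a,
            FK K mu mu' (Finset.insertNone B) =
          ∑ x ∈ HasAntidiagonal.antidiagonal a, W x.1 *
            ∑ B ∈ (univ : Finset ι).powerset with tyi sc B = x.2,
              FK (fun i => K (some i)) (H461.push rs mu) (H461.push rs mu') B) ∧
      (∀ a : J →₀ ℕ, (a.degree : ℝ) + 1 ≤ Real.exp (Q.d1 * Q.p) →
        |W a| ≤ Real.exp (((max (k + 21) (10 * max Aa Ab + 12) : ℕ) : ℝ) * ℓ none +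
          ((max (k + 21) (10 * max Aa Ab + 12) : ℕ) : ℝ) * a.degree * Real.log (lf ell a) -
            min c1a c1b * lf ell a)) := by
  classical
  have hSm : ∀ K1 : ℕ, K1 ≤ K0 →
      Scl Q K1 univ (fun i => ℓ (some i)) (fun i => es (some i)) sc sn ell := fun K1 hK1 =>
    ⟨hS.inj, hS.ell1, fun j => hK1.trans (hS.K0 j), hS.top, hS.es1, hS.lo, hS.up, hS.card⟩
  have hell : ∀ j, 2 * ((max Aa Ab : ℕ) : ℝ) + 2 ≤ ell j := by
    intro j
    rw [hS.ell1]
    exact numOa (hKA.trans (hS.K0 j))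
  have h3 : (0 : ℝ) ≤ ((max Aa Ab : ℕ) : ℝ) := Nat.cast_nonneg _
  have hE1 : 1 ≤ Real.exp (Q.d1 * Q.p) := Real.one_le_exp (mul_nonneg hd0.le (by linarith))
  obtain ⟨hb1, hdeg⟩ := numOc hE1
  have hΛ : ℓ none ≤ Q.Λ := hlu.trans (numOb hθ hd hp2 hpθ)
  have hnlo : ¬ lo none := fun h => by simpa using (hP.lo1 none h).1
  have hmin := min_le_left c1a c1b
  obtain ⟨W, hW1, hW2⟩ := bo_fixed (Q := Q) (c1 := min c1a c1b) (c1a := c1a) (c1b := c1b)
    (c2 := c2) (g := g) (Aa := Aa) (Ab := Ab) (k := k) (b0 := ⌊Real.exp (Q.d1 * Q.p)⌋₊ - 1)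
    hS hP hP0 hrk hek hg.le (le_min hc1a.le hc1b.le) (min_le_left _ _) (min_le_right _ _)
    (by linarith) (fun j => by linarith [hell j]) (fun j => by linarith [hell j]) hΛ ha0
    (hpa0.trans hpl) hγ0 hγ (hp2.trans hpl)
    (fun rho' e' hP' b h1 h2 j => hB J ι (fun i => V (some i)) _ _ sc sn ell _ _ _ _ _ _ _ _ _
      rho' e' _ _ (hSm _ hKa) hP' b h1 (hb1 b h2) j)
    (fun nu hnu rho' e' h1 h2 h3 h4 h5 h6 b hb hb' j σ hσ hσ' =>
      hR J ι V ℓ es sc sn ell lo lam lam2 u rho' e' nu (hSm _ hKb) hnu hP.low hP.high hnlo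
        hpl hlu h1 h2 h3 h4 h5 h6 b hb (hb1 b hb') j σ hσ hσ')
  exact ⟨W, fun a _ => hW1 a, fun a ha => hW2 a (hdeg _ ha)⟩

/-- **`BOof` from `BTSof` and the rows.** -/
theorem boof1_of (hB : BTSof) (hR : RwOof) : BOof := by
  intro C1 hC1 k
  obtain ⟨CKa, hBa⟩ := hB C1 hC1
  obtain ⟨CKb, hRb⟩ := hR C1 hC1
  refine ⟨max CKa CKb, fun CK hCK => ?_⟩
  obtain ⟨Ga, hGa, hBa⟩ := hBa CK ((le_max_left _ _).trans hCK)
  obtain ⟨Gb, hGb, hRb⟩ := hRb CK ((le_max_right _ _).trans hCK)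
  refine ⟨min Ga Gb, lt_min hGa hGb, fun G hG0 hG => ?_⟩
  obtain ⟨c1a, c2a, Aa, hc1a, hc12a, ga, hga, ka, hka, hBa⟩ :=
    hBa G hG0 (hG.trans (min_le_left _ _))
  obtain ⟨c1b, c2b, Ab, hc1b, hc12b, gb, hgb, kb, hkb, hRb⟩ :=
    hRb G hG0 (hG.trans (min_le_right _ _))
  refine ⟨min c1a c1b, c2a, max (k + 21) (10 * max Aa Ab + 12), lt_min hc1a hc1b,
    (min_le_left _ _).trans_lt hc12a, min (min ga gb) (min (c2a - c1a) 1),
    lt_min (lt_min hga hgb) (lt_min (by linarith) one_pos), min (min ka kb) (1 / 4),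
    lt_min (lt_min hka hkb) (by norm_num), ?_⟩
  intro g kap γ d1 hg0 hg hkap hkg hγ0 hγ hd0 hd a0 ha0
  have hg1 : g ≤ ga := hg.trans ((min_le_left _ _).trans (min_le_left _ _))
  have hg2 : g ≤ gb := hg.trans ((min_le_left _ _).trans (min_le_right _ _))
  have hg3 : g ≤ c2a - c1a := hg.trans ((min_le_right _ _).trans (min_le_left _ _))
  have hg4 : g ≤ 1 := hg.trans ((min_le_right _ _).trans (min_le_right _ _))
  have hk1 : min (min ka kb) (1 / 4) ≤ ka := (min_le_left _ _).trans (min_le_left _ _)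
  have hk2 : min (min ka kb) (1 / 4) ≤ kb := (min_le_left _ _).trans (min_le_right _ _)
  have hk3 : min (min ka kb) (1 / 4 : ℝ) ≤ 1 / 4 := min_le_right _ _
  have hγ1 : γ ≤ 1 := by
    have h1 : min (min ka kb) (1 / 4) * kap ≤ 1 / 4 * kap :=
      mul_le_mul_of_nonneg_right hk3 hkap.le
    linarith
  obtain ⟨K0a, hBa⟩ := hBa g kap γ d1 hg0 hg1 hkap hkg hγ0
    (hγ.trans (mul_le_mul_of_nonneg_right hk1 hkap.le)) hd0 (hd.trans hk1) a0 ha0
  obtain ⟨K0b, hRb⟩ := hRb g kap γ d1 hg0 hg2 hkap hkg hγ0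
    (hγ.trans (mul_le_mul_of_nonneg_right hk2 hkap.le)) hd0 (hd.trans hk2) a0 ha0
  refine ⟨max (max K0a K0b) (4 * max Aa Ab + 4), fun θ c0 cD hθ hc0 hcD hcDk => ?_⟩
  have hγθ : 0 ≤ γ * θ := by positivity
  obtain ⟨pa, hBa⟩ := hBa θ c0 cD hθ hc0 hcD (hcDk.trans (mul_le_mul_of_nonneg_right hk1 hγθ))
  obtain ⟨pb, hRb⟩ := hRb θ c0 cD hθ hc0 hcD (hcDk.trans (mul_le_mul_of_nonneg_right hk2 hγθ))
  refine ⟨max (max pa pb) (max (max a0 2) (2 / θ)), fun p hp => ?_⟩
  have hpa : pa ≤ p := ((le_max_left _ _).trans (le_max_left _ _)).trans hp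
  have hpb : pb ≤ p := ((le_max_right _ _).trans (le_max_left _ _)).trans hp
  have hpa0 : a0 ≤ p :=
    ((le_max_left _ _).trans ((le_max_left _ _).trans (le_max_right _ _))).trans hp
  have hp2 : 2 ≤ p :=
    ((le_max_right _ _).trans ((le_max_left _ _).trans (le_max_right _ _))).trans hp
  have hpθ : 2 / θ ≤ p := ((le_max_right _ _).trans (le_max_right _ _)).trans hp
  exact bo_param (Q := ⟨p, C1, γ, a0, θ, c0, cD, kap, d1, G, CK⟩) (k := k)
    ((le_max_left _ _).trans (le_max_left _ _))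
    ((le_max_right _ _).trans (le_max_left _ _)) (le_max_right _ _) hc1a hc1b hg0 (by linarith)
    ha0 hγ0.le hγ1 hθ hd0 (hd.trans hk3) hpa0 hp2 hpθ (hBa p hpa) (hRb p hpb)

end Vale.Agent.P042.H564.Oo
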