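import Vale.Agent.P042.H564.OoRow
import Vale.Agent.P042.H284.Glue
import Vale.Agent.P042.H365.Marg

/-!
# P042, F.INF3: `BdT` along an injection of coordinates
-/

set_option autoImplicit false
set_option linter.unusedSectionVars false

namespace Vale.Agent.P042.H564.Oo

open Finset Vale.Agent.P042.H232 Vale.Agent.P042.H461 Vale.Agent.P042.H742 Vale.Agent.P042.H365
  Vale.Agent.P042.H416
open Vale.Agent.P042.H779 (m1)
open Vale.Agent.P042.H284 (BV Lt pr pr_nil pr_cons pr_nonneg pr_perm BdT sum_Lt_nil sum_Lt_cons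
  sum_Lt_perm VJ)

universe v

section inj

variable {ι1 ι : Type*} [Fintype ι1] [DecidableEq ι1] [Fintype ι] [DecidableEq ι]
  {V : ι → Type*} [∀ i, Fintype (V i)] [∀ i, DecidableEq (V i)] (f : ι1 → ι)

/-- The restriction of the coordinates along `f`. -/
def pul (x : ∀ i, V i) : ∀ j : ι1, V (f j) := fun j => x (f j)

/-- The marginal law along `f`. -/
noncomputable def mf (mu : (∀ i, V i) → ℝ) : (∀ j : ι1, V (f j)) → ℝ := push (pul f) mu

/-- The map of the extended letters. -/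
def ef (ω : Σ j : ι1, Option (V (f j))) : Σ i, Option (V i) := ⟨f ω.1, ω.2⟩

variable {f}

theorem ef_inj (hf : Function.Injective f) : Function.Injective (ef (V := V) f) := by
  rintro ⟨i, a⟩ ⟨j, b⟩ h
  have h1 : f i = f j := congrArg Sigma.fst h
  obtain rfl := hf h1
  have h2 : a = b := eq_of_heq (Sigma.mk.inj h).2
  subst h2
  rfl

variable {lam : ∀ i, V i → ℝ} {mu : (∀ i, V i) → ℝ}

theorem uo_ef (ω : Σ j : ι1, Option (V (f j))) (x : ∀ i, V i) :
    uo lam (ef f ω) x = uo (fun j => lam (f j)) ω (pul f x) := by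
  obtain ⟨i, a⟩ := ω
  cases a with
  | none => rfl
  | some a => rfl

theorem dst_ef (hf : Function.Injective f) (S : Multiset (Σ j : ι1, Option (V (f j)))) :
    Dst Sigma.fst (S.map (ef f)) ↔ Dst Sigma.fst S := by
  unfold Dst
  have h1 : (S.map (ef f)).map Sigma.fst = (S.map Sigma.fst).map f := by
    rw [Multiset.map_map, Multiset.map_map]
    rfl
  rw [h1]
  exact Multiset.nodup_map_iff_of_injective hf

theorem Mo_ef (hf : Function.Injective f) (S : Multiset (Σ j : ι1, Option (V (f j)))) :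
    Mo lam mu (S.map (ef f)) = Mo (fun j => lam (f j)) (mf f mu) S := by
  unfold Mo mom
  by_cases h : Dst Sigma.fst S
  · rw [if_pos h, if_pos ((dst_ef hf S).2 h)]
    unfold mf
    rw [sum_push]
    refine Finset.sum_congr rfl fun x _ => ?_
    rw [Multiset.map_map]
    congr 2
    exact Multiset.map_congr rfl fun ω _ => uo_ef ω x
  · rw [if_neg h, if_neg fun h' => h ((dst_ef hf S).1 h')]

theorem wo_ef (R E : ι → ℝ) (ω : Σ j : ι1, Option (V (f j))) :
    wo lam R E (ef f ω) = wo (fun j => lam (f j)) (fun j => R (f j)) (fun j => E (f j)) ω := by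
  obtain ⟨i, a⟩ := ω
  cases a with
  | none => rfl
  | some a => rfl

/-- **The normalised cumulants of the marginal law.** -/
theorem Tn_ef (hf : Function.Injective f) (hmu : ∑ x, mu x = 1) (R E : ι → ℝ)
    {S : Multiset (Σ j : ι1, Option (V (f j)))} (hS : S ≠ 0) :
    Tn lam mu R E (S.map (ef f)) =
      Tn (fun j => lam (f j)) (mf f mu) (fun j => R (f j)) (fun j => E (f j)) S := by
  unfold Tn
  rw [Vale.Agent.P042.H365.cumT_map (M := Mo lam mu)
    (M' := Mo (fun j => lam (f j)) (mf f mu)) (ef f) (Mo_ef hf)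
    (mom_zero Sigma.fst univ mu (uo lam) hmu) hS, Multiset.map_map]
  congr 2
  exact Multiset.map_congr rfl fun ω _ => congrArg Real.sqrt (wo_ef R E ω)

theorem sum_Lt_ef (hf : Function.Injective f) {Λ : Type*} {X : Λ → Finset (Σ i, Option (V i))}
    {X' : Λ → Finset (Σ j : ι1, Option (V (f j)))} :
    ∀ (τ : List Λ) (_ : ∀ l ∈ τ, X l = (X' l).map ⟨ef f, ef_inj hf⟩)
      (F : List (Σ i, Option (V i)) → ℝ),
      ∑ ω ∈ Lt X τ, F ω = ∑ ω ∈ Lt X' τ, F (ω.map (ef f))
  | [], _, F => by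
    rw [sum_Lt_nil, sum_Lt_nil]
    rfl
  | l :: τ, hτ, F => by
    rw [sum_Lt_cons, sum_Lt_cons, hτ l (by simp), Finset.sum_map]
    exact Finset.sum_congr rfl fun a _ =>
      sum_Lt_ef hf τ (fun l hl => hτ l (List.mem_cons_of_mem _ hl)) fun ω => F (ef f a :: ω)

theorem typ_ef (hf : Function.Injective f) (hmu : ∑ x, mu x = 1) (R E : ι → ℝ) {Λ : Type*}
    {X : Λ → Finset (Σ i, Option (V i))} {X' : Λ → Finset (Σ j : ι1, Option (V (f j)))}
    {τ : List Λ} (hτ0 : τ ≠ []) (hτ : ∀ l ∈ τ, X l = (X' l).map ⟨ef f, ef_inj hf⟩) :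
    ∑ ω ∈ Lt X τ, Tn lam mu R E (ω : Multiset _) ^ 2 =
      ∑ ω ∈ Lt X' τ, Tn (fun j => lam (f j)) (mf f mu) (fun j => R (f j)) (fun j => E (f j))
        (ω : Multiset _) ^ 2 := by
  rw [sum_Lt_ef hf τ hτ]
  refine Finset.sum_congr rfl fun ω hω => ?_
  have h1 : (ω : Multiset (Σ j : ι1, Option (V (f j)))) ≠ 0 := by
    intro h
    have h2 := H284.length_of_mem_Lt hω
    have h3 : ω = [] := by simpa using h
    rw [h3] at h2
    exact hτ0 (List.length_eq_zero_iff.1 h2.symm)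
  rw [← Tn_ef hf hmu R E h1]
  rfl

theorem BV_ef (hf : Function.Injective f) (hmu : ∑ x, mu x = 1) (R E : ι → ℝ)
    {X Y : Finset (Σ i, Option (V i))} {X' Y' : Finset (Σ j : ι1, Option (V (f j)))}
    (hX : X = X'.map ⟨ef f, ef_inj hf⟩) (hY : Y = Y'.map ⟨ef f, ef_inj hf⟩) {w : ℝ} :
    (BV w X Y fun a b => Tn lam mu R E (a ::ₘ b ::ₘ 0)) ↔
    BV w X' Y' fun a b => Tn (fun j => lam (f j)) (mf f mu) (fun j => R (f j)) (fun j => E (f j))
      (a ::ₘ b ::ₘ 0) := by
  have key : ∀ u v : (Σ i, Option (V i)) → ℝ,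
      ∑ p ∈ X, ∑ q ∈ Y, u p * Tn lam mu R E (p ::ₘ q ::ₘ 0) * v q =
      ∑ p ∈ X', ∑ q ∈ Y', u (ef f p) * Tn (fun j => lam (f j)) (mf f mu) (fun j => R (f j))
        (fun j => E (f j)) (p ::ₘ q ::ₘ 0) * v (ef f q) := by
    intro u v
    rw [hX, hY, Finset.sum_map]
    refine Finset.sum_congr rfl fun a _ => ?_
    rw [Finset.sum_map]
    refine Finset.sum_congr rfl fun b _ => ?_
    have h2 := Tn_ef (lam := lam) hf hmu R E (S := a ::ₘ b ::ₘ 0) (Multiset.cons_ne_zero)
    rw [← h2]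
    rfl
  have keyX : ∀ u : (Σ i, Option (V i)) → ℝ, ∑ p ∈ X, u p ^ 2 = ∑ p ∈ X', u (ef f p) ^ 2 := by
    intro u
    rw [hX, Finset.sum_map]
    rfl
  have keyY : ∀ u : (Σ i, Option (V i)) → ℝ, ∑ p ∈ Y, u p ^ 2 = ∑ p ∈ Y', u (ef f p) ^ 2 := by
    intro u
    rw [hY, Finset.sum_map]
    rfl
  constructor
  · intro h u v
    have h1 := h (Function.extend (ef f) u 0) (Function.extend (ef f) v 0)
    rw [key, keyX, keyY] at h1
    simpa only [(ef_inj hf).extend_apply] using h1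
  · intro h u v
    rw [key, keyX, keyY]
    exact h _ _

/-- **`BdT` of a law and of its marginal law.** -/
theorem bdt_ef (hf : Function.Injective f) (hmu : ∑ x, mu x = 1) (R E : ι → ℝ) {Λ : Type*}
    {X : Λ → Finset (Σ i, Option (V i))} {X' : Λ → Finset (Σ j : ι1, Option (V (f j)))}
    (hX : ∀ l, X l = (X' l).map ⟨ef f, ef_inj hf⟩) {b : ℕ} {y κ : Λ → ℝ} {N : Λ → Λ → ℝ} :
    BdT X b y κ N (Tn lam mu R E) ↔
      BdT X' b y κ N (Tn (fun j => lam (f j)) (mf f mu) (fun j => R (f j)) (fun j => E (f j))) := by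
  have hs : ∀ τ : List Λ, τ ≠ [] → ∑ ω ∈ Lt X τ, Tn lam mu R E (ω : Multiset _) ^ 2 =
      ∑ ω ∈ Lt X' τ, Tn (fun j => lam (f j)) (mf f mu) (fun j => R (f j)) (fun j => E (f j))
        (ω : Multiset _) ^ 2 := fun τ hτ => typ_ef hf hmu R E hτ fun l _ => hX l
  constructor
  · intro h
    refine ⟨fun l => ?_, fun l m => ?_, fun l m => ?_, fun τ h3 hb => ?_⟩
    · rw [← hs [l] (by simp)]; exact h.one l
    · rw [← hs [l, m] (by simp)]; exact h.two l m
    · exact (BV_ef hf hmu R E (hX l) (hX m)).1 (h.op l m)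
    · rw [← hs τ (by rintro rfl; simp at h3)]; exact h.hs τ h3 hb
  · intro h
    refine ⟨fun l => ?_, fun l m => ?_, fun l m => ?_, fun τ h3 hb => ?_⟩
    · rw [hs [l] (by simp)]; exact h.one l
    · rw [hs [l, m] (by simp)]; exact h.two l m
    · exact (BV_ef hf hmu R E (hX l) (hX m)).2 (h.op l m)
    · rw [hs τ (by rintro rfl; simp at h3)]; exact h.hs τ h3 hb

theorem push_push' {X Y Z : Type*} [Fintype X] [Fintype Y] [Fintype Z] [DecidableEq Y]
    [DecidableEq Z] (a : X → Y) (b : Y → Z) (m : X → ℝ) :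
    push b (push a m) = push (fun x => b (a x)) m := by
  funext z
  unfold push
  rw [← Finset.sum_fiberwise_of_maps_to (s := univ.filter fun x => b (a x) = z)
    (t := univ.filter fun y => b y = z) (g := a) (fun x hx => by
      rw [mem_filter] at hx ⊢
      exact ⟨mem_univ _, hx.2⟩)]
  refine Finset.sum_congr rfl fun y hy => ?_
  refine Finset.sum_congr ?_ fun _ _ => rfl
  ext x
  rw [mem_filter, mem_filter, mem_filter]
  constructor
  · rintro ⟨_, h⟩
    exact ⟨⟨mem_univ _, by rw [h]; exact (mem_filter.1 hy).2⟩, h⟩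
  · rintro ⟨_, h⟩
    exact ⟨mem_univ _, h⟩

end inj

section transfer

variable {ι0 ι : Type*} [Fintype ι0] [DecidableEq ι0] [Fintype ι] [DecidableEq ι]
  {V : ι → Type*} [∀ i, Fintype (V i)] [∀ i, DecidableEq (V i)] {f : ι0 → ι}
  {J : Type v} [Fintype J] [DecidableEq J]
  {lam : ∀ i, V i → ℝ} {mu : (∀ i, V i) → ℝ} {p : ι → Prop} [DecidablePred p]

/-- **The ordinary types of the marginal law on `p`** (`p` = scales up to `ell j`, and `o`): `BdT`
from `BdT` (letters up to `ell j`) of the law on the ordinary coordinates. -/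
theorem bdt_ord (hf : Function.Injective f) (hmu : ∑ x, mu x = 1) {sc : ι → Option J}
    {sc0 : ι0 → J} (hsc : ∀ i, sc (f i) = some (sc0 i))
    (hr : ∀ i, sc i ≠ none → i ∈ Set.range f) {ell : J → ℝ} {j : J}
    (hp : ∀ i : ι0, p (f i) ↔ ell (sc0 i) ≤ ell j)
    {VV : Option J → Finset (Σ i : {i // p i}, Option (V i))}
    (hV : ∀ l ω, ω ∈ VV l ↔ sc ω.1 = l) {R E : {i // p i} → ℝ} {R0 E0 : ι0 → ℝ}
    (hR : ∀ (i : ι0) (hi : p (f i)), R ⟨f i, hi⟩ = R0 i)
    (hE : ∀ (i : ι0) (hi : p (f i)), E ⟨f i, hi⟩ = E0 i) {b : ℕ} {y κ : J → ℝ} {N : J → J → ℝ}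
    (hT : BdT (VJ (fun i => V (f i)) sc0 ell j) b y κ N
      (Tn (fun i => lam (f i)) (mf f mu) R0 E0)) :
    BdT (fun l => VV (some l)) b y κ N (Tn (lsub p lam) (msub p mu) R E) := by
  classical
  -- the common marginal
  let ι1 := {i : ι0 // ell (sc0 i) ≤ ell j}
  let f1 : ι1 → ι0 := Subtype.val
  let f2 : ι1 → {i // p i} := fun i => ⟨f i.1, (hp i.1).2 i.2⟩
  have hf1 : Function.Injective f1 := Subtype.val_injective
  have hf2 : Function.Injective f2 := by
    intro a b h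
    have h1 : f a.1 = f b.1 := congrArg Subtype.val h
    exact Subtype.ext (hf h1)
  have hmu0 : ∑ x, mf f mu x = 1 := by
    unfold mf
    rw [sum_push_one, hmu]
  have hmus : ∑ x, msub p mu x = 1 := by rw [msub_sum, hmu]
  -- the letters
  let X' : J → Finset (Σ i : ι1, Option (V (f (f1 i)))) := fun l =>
    univ.filter fun ω => sc0 ω.1.1 = l
  have hX1 : ∀ l, VJ (fun i => V (f i)) sc0 ell j l =
      (X' l).map ⟨ef (V := fun i => V (f i)) f1, ef_inj hf1⟩ := by
    intro l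
    ext ⟨i, a⟩
    unfold VJ
    rw [mem_map]
    constructor
    · intro h
      split_ifs at h with hl
      · have h1 : sc0 i = l := (mem_filter.1 h).2
        refine ⟨⟨⟨i, by rw [h1]; exact hl⟩, a⟩, ?_, rfl⟩
        rw [mem_filter]
        exact ⟨mem_univ _, h1⟩
      · simp at h
    · rintro ⟨⟨⟨i', hi'⟩, a'⟩, h1, h2⟩
      have h3 : sc0 i' = l := (mem_filter.1 h1).2
      have h4 : (⟨i', a'⟩ : Σ i : ι0, Option (V (f i))) = ⟨i, a⟩ := h2
      rw [← h4]
      rw [if_pos (by rw [← h3]; exact hi'), mem_filter]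
      exact ⟨mem_univ _, h3⟩
  have hX2 : ∀ l, VV (some l) =
      (X' l).map ⟨ef (V := fun i : {i // p i} => V i) f2, ef_inj hf2⟩ := by
    intro l
    ext ⟨⟨i, hi⟩, a⟩
    rw [hV, mem_map]
    constructor
    · intro h
      have h0 : sc i = some l := h
      obtain ⟨i0, rfl⟩ := hr i (by rw [h0]; simp)
      have h1 : sc0 i0 = l := by
        have := hsc i0
        rw [h0] at this
        exact (Option.some.inj this).symm
      refine ⟨⟨⟨i0, (hp i0).1 hi⟩, a⟩, ?_, rfl⟩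
      rw [mem_filter]
      exact ⟨mem_univ _, h1⟩
    · rintro ⟨⟨⟨i', hi'⟩, a'⟩, h1, h2⟩
      have h3 : sc0 i' = l := (mem_filter.1 h1).2
      have h4 : (⟨⟨f i', (hp i').2 hi'⟩, a'⟩ : Σ i : {i // p i}, Option (V i)) = ⟨⟨i, hi⟩, a⟩ := h2
      rw [← h4]
      show sc (f i') = some l
      rw [hsc, h3]
  have h1 := (bdt_ef (V := fun i => V (f i)) (lam := fun i => lam (f i)) hf1 hmu0 R0 E0 hX1).1 hT
  refine (bdt_ef (V := fun i : {i // p i} => V i) (lam := lsub p lam) hf2 hmus R E hX2).2 ?_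
  have e1 : (fun i : ι1 => R (f2 i)) = fun i : ι1 => R0 (f1 i) := by
    funext i
    exact hR i.1 _
  have e2 : (fun i : ι1 => E (f2 i)) = fun i : ι1 => E0 (f1 i) := by
    funext i
    exact hE i.1 _
  have e3 : mf (V := fun i : {i // p i} => V i) f2 (msub p mu) =
      mf (V := fun i => V (f i)) f1 (mf f mu) := by
    unfold mf msub
    rw [push_push', push_push']
    rfl
  rw [e1, e2, e3]
  exact h1

end transfer

end Vale.Agent.P042.H564.Oo
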